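import Vale.Agent.P247D.Fin
import Vale.Agent.P247C.Dec
import Vale.Agent.P247C.Irr
import Vale.Agent.P247C.Emb
import Vale.Agent.P247L.LX
import Vale.Agent.P247N.Main
import Vale.Agent.P247Y.Folx
import Vale.Agent.P247Y.Fam
import Vale.Agent.P247Y.Transpl
import Vale.Agent.P247Y.Tube
import Vale.Agent.P247Y.Folb
import Vale.Agent.P247Y.Cob

/-!
# P247D: the rows `FOL` and `TORX`, unconditionally
-/

namespace Vale.Agent.P247D

theorem bb2 : BB2 :=
  ⟨P247L.LSXX, P247N.SIUB, P247C.dec, P247C.irr, P247C.emb, P247C.pos, P247C.adj,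
    P247Y.FOLX P247Y.COB P247Y.tube P247Y.TRANSPL P247Y.FAM, P247Y.FOLB⟩

theorem fol : P247A.FOL_statement := fol_bb bb2

theorem torx : P247A.TORX_statement := torx_of P247C.emb

end Vale.Agent.P247D
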