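import Vale.Agent.P247Y.Sta

/-!
# P247, stage 2, block FOL: from one torus to a closed coframe; statements
-/

open scoped Manifold ContDiff Topology
open Set Filter Metric

noncomputable section

namespace Vale.Agent.P247D

open Vale.Agent.P247.SCY hiding dm
open Vale.Agent.P247.SCY.HS
open Vale.Agent.P247X
open Vale.Agent.P247Y

section defs

variable {Z : Type} [TopologicalSpace Z] [ChartedSpace HS.E4 Z]

/-- `c = a ∧ a'` -/
def IsW (a a' : Form Z 1) (c : Form Z 2) : Prop := ∀ x (u v : TangentSpace (𝓡 4) x),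
  c x ![u, v] = a x ![u] * a' x ![v] - a x ![v] * a' x ![u]

/-- `a` is exact on the torus `T` -/
def ExT {J : EndF Z} (a : Form Z 1) (T : Tor J) : Prop := ∃ (g : ℂ → ℝ) (C : ℝ),
  (∀ z, |g z| ≤ C) ∧ ∀ z, DifferentiableAt ℝ g z ∧
    ∀ ζ, fderiv ℝ g z ζ = a (T.u z) ![dm T.u z ζ]

/-- the differential of a real function -/
def dfr (f : Z → ℝ) (x : Z) (v : TangentSpace (𝓡 4) x) : ℝ := mfderiv (𝓡 4) 𝓘(ℝ, ℝ) f x v

/-- closed coframes -/
def Cof (θ : Fin 4 → Form Z 1) : Prop := (∀ i, SC (θ i)) ∧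
  ∀ x (v : TangentSpace (𝓡 4) x), (∀ i, θ i x ![v] = 0) → v = 0

end defs

/-- rational curves: products of closed one-forms integrate to zero -/
def RATZ_statement : Prop := ∀ (X : Type) [Cl4 X] (J : EndF X) (K : Irr J), Rat K.K →
  ∀ (a a' : Form X 1) (c : Form X 2), SC a → SC a' → SC c → IsW a a' c → K.T c = 0

/-- the black boxes -/
structure BB2 : Prop where
  lsx : LSX_statement
  siub : SIUB_statement
  dec : DEC_statement
  irr : IRR_statement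
  emb : EMB_statement
  pos : POS_statement
  adj : ADJ_statement
  fol : FOL_statement
  folb : FOLB_statement

/-- the global foliation -/
def FOLA_statement : Prop := BB2 → ∀ (X : Type) [Cl4 X] (μ : Form X 4), Volume μ →
  ∀ w : Tri X, Hypersymplectic μ w → ∀ E : Form X 2, pair μ E E = 0 →
  (∀ K : Irr (Jw w), ¬ Rat K.K ∧ ∃ m : ℤ, IsCls μ K.T fun x => (m : ℝ) • E x) →
  Nonempty (Irr (Jw w)) → ∃ 𝓛, Foli (Jw w) 𝓛

/-- representatives with constant coefficients on every leaf -/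
def TANF_statement : Prop := FOLB_statement → ∀ (Z : Type) [TopologicalSpace Z]
  [ChartedSpace HS.E4 Z] [IsManifold (𝓡 4) ∞ Z] [T2Space Z] [CompactSpace Z] (J : EndF Z),
  (∀ x u, J x (J x u) = -u) → ∀ 𝓛, Foli J 𝓛 → ∀ a : Form Z 1, SC a →
  ∃ f : Z → ℝ, ContMDiff (𝓡 4) 𝓘(ℝ, ℝ) ∞ f ∧ ∀ T : Tor J, 𝓛 T.set → ∃ L : ℂ →L[ℝ] ℝ,
    ∀ z ζ, a (T.u z) ![dm T.u z ζ] = L ζ + dfr f (T.u z) (dm T.u z ζ)

/-- action coordinates -/
def ACT_statement : Prop := FOLB_statement → ∀ (Z : Type) [TopologicalSpace Z]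
  [ChartedSpace HS.E4 Z] [IsManifold (𝓡 4) ∞ Z] [T2Space Z] (P : PairJ Z), ∀ 𝓛, Foli P.J 𝓛 →
  ∀ a a' : Form Z 1, SC a → SC a' → (∀ T : Tor P.J, 𝓛 T.set → ∀ s t : ℝ,
    ExT (fun x => s • a x + t • a' x) T → s = 0 ∧ t = 0) →
  ∃ b : Fin 2 → Form Z 1, (∀ j, SC (b j)) ∧ ∀ T : Tor P.J, 𝓛 T.set → ∀ z,
    ∀ v : TangentSpace (𝓡 4) (T.u z), (∀ j, b j (T.u z) ![v] = 0) → ∃ ζ, v = dm T.u z ζ

/-- the block -/
def FOL2_statement : Prop := ∀ (X : Type) [Cl4 X] (μ : Form X 4), Volume μ →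
  ∀ w : Tri X, Hypersymplectic μ w → ∀ E : Form X 2, pair μ E E = 0 →
  (∀ K : Irr (Jw w), ∃ m : ℤ, IsCls μ K.T fun x => (m : ℝ) • E x) → Nonempty (Irr (Jw w)) →
  ∀ (a a' : Form X 1) (c : Form X 2), SC a → SC a' → SC c → IsW a a' c → pair μ E c ≠ 0 →
  ∃ θ : Fin 4 → Form X 1, Cof θ

/-- assembly -/
def ASMD_statement : Prop := BB2 → RATZ_statement → FOLA_statement → TANF_statement →
  ACT_statement → FOL2_statement

end Vale.Agent.P247D
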