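import Vale.Agent.P247D.Per
import Vale.Agent.P247D.Sta
import Vale.Agent.P247Y.Folb
import Vale.Agent.P247Y.Tube
import Vale.Agent.P247M.LBOps

/-!
# P247, block FOL: action coordinates
-/

set_option linter.all false

open scoped Manifold ContDiff Topology
open Set MeasureTheory Filter Metric Function

noncomputable section

namespace Vale.Agent.P247D

open Vale.Agent.P247.SCY hiding dm
open Vale.Agent.P247.SCY.HS
open Vale.Agent.P247X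
open Vale.Agent.P247Y
open Vale.Agent.P247S (Cov Bil)
open Vale.Agent.P247.H74 (P2)
open Vale.Agent.P247M (pb dP Df d0 rf hs)

namespace Per

variable {Z : Type} [TopologicalSpace Z] [ChartedSpace HS.E4 Z] [IsManifold (𝓡 4) ∞ Z]
  {J : EndF Z} {𝓛 : Set Z → Prop}

/-- the inclusion of the fibre -/
abbrev ir : P2 →L[ℝ] W := ContinuousLinearMap.inr ℝ P2 P2

theorem ψ_per' (F : Fol J) (y p : P2) (m n : ℤ) : F.Ψ (y, p + zv m n) = F.Ψ (y, p) := F.per y p m n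

theorem cpt {k : P2 → ℝ} (hk : Continuous k) (hp : ∀ p m n, k (p + zv m n) = k p) :
    IsCompact (range k) := cpt_per hk 1 one_pos fun p m n => by
  simpa [zv, Prod.add_def] using hp p m n

theorem Df_dP {G : Z → ℝ} (F : Fol J) {q : W} (hq : q ∈ Dom F.ε)
    (hG : ContMDiffAt (𝓡 4) 𝓘(ℝ, ℝ) ∞ G (F.Ψ q)) (v : W) :
    Df G (F.Ψ q) (dP F.Ψ q v) = fderiv ℝ (G ∘ F.Ψ) q v := by
  rw [← P247M.mfderiv_eq_Df hG, ← mfderiv_eq_fderiv,
    mfderiv_comp q (hG.mdifferentiableAt (by simp)) (mdiff F hq)]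
  rfl

/-- transitions between foliated neighbourhoods -/
theorem trans (hu : ∀ L L', 𝓛 L → 𝓛 L' → (L ∩ L').Nonempty → L = L') {F F' : Fol J}
    (hF : ∀ y ∈ ball (0 : P2) F.ε, 𝓛 (F.leaf y)) (hF' : ∀ y ∈ ball (0 : P2) F'.ε, 𝓛 (F'.leaf y))
    {y y' p0 p0' : P2} (hy : y ∈ ball (0 : P2) F.ε) (hy' : y' ∈ ball (0 : P2) F'.ε)
    (h0 : F.Ψ (y, p0) = F'.Ψ (y', p0')) : ∃ H : P2 →L[ℝ] P2, ∀ p p', F.Ψ (y, p) = F'.Ψ (y', p') →
      ∃ (σ : P2 → P2) (D : W →L[ℝ] W), σ p = p' ∧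
        HasFDerivAt σ ((ContinuousLinearMap.snd ℝ P2 P2).comp (D.comp ir)) p ∧
        (∀ᶠ r in 𝓝 p, F'.Ψ (y', σ r) = F.Ψ (y, r)) ∧ (∀ w, (D w).1 = H w.1) ∧
        dP F.Ψ (y, p) = (dP F'.Ψ (y', p')).comp D := by
  obtain ⟨π, hπ⟩ := desc0 F' (g := Prod.fst) fun q _ m n => add_zero _
  have hπs := sm_of F' contDiffOn_fst hπ
  have hq0 : ((y, p0) : W) ∈ Dom F.ε := mem_dom.2 hy
  have hm : F.Ψ (y, p0) ∈ F'.img := ⟨(y', p0'), mem_dom.2 hy', h0.symm⟩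
  have h1 : ContDiffAt ℝ ∞ (fun z => π (F.Ψ (z, p0))) y :=
    contMDiffAt_iff_contDiffAt.1 ((hπs _ hm).comp y ((F.at hq0).comp y
      (contDiffAt_id.prodMk contDiffAt_const).contMDiffAt))
  have h2 : ∀ᶠ z in 𝓝 y, ∀ r, π (F.Ψ (z, r)) = π (F.Ψ (z, p0)) := by
    have k : ContinuousAt (fun z => F.Ψ (z, p0)) y :=
      (F.at hq0).continuousAt.comp (f := fun z => (z, p0)) (by fun_prop)
    filter_upwards [k.preimage_mem_nhds ((img_open F').mem_nhds hm), isOpen_ball.mem_nhds hy]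
      with z ⟨q, hq, e⟩ hz r
    obtain ⟨r', k'⟩ : F.Ψ (z, r) ∈ F'.leaf q.1 :=
      hu _ _ (hF z hz) (hF' _ hq.1) ⟨_, ⟨p0, rfl⟩, q.2, e⟩ ▸ ⟨r, rfl⟩
    have k'' : F'.Ψ (q.1, r') = F.Ψ (z, r) := k'
    have e' : F'.Ψ q = F.Ψ (z, p0) := e
    rw [← k'', ← e', hπ _ hq, hπ (q.1, r') (mem_dom.2 hq.1)]
  refine ⟨fderiv ℝ (fun z => π (F.Ψ (z, p0))) y, fun p p' e => ?_⟩
  have hq : ((y, p) : W) ∈ Dom F.ε := mem_dom.2 hy
  have hq' : ((y', p') : W) ∈ Dom F'.ε := mem_dom.2 hy'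
  obtain ⟨E, k1, k2, k3, k4⟩ := locInv (dom_open _) F'.smooth hq' (F'.bij _ hq')
  have k5 : F.Ψ (y, p) ∈ E.target := by rw [e, ← k3]; exact E.map_source k1
  have k6 : E.symm (F.Ψ (y, p)) = (y', p') := by rw [e, ← k3, E.left_inv k1]
  have k7 : HasFDerivAt (E.symm ∘ F.Ψ) (fderiv ℝ (E.symm ∘ F.Ψ) (y, p)) (y, p) :=
    ((contMDiffAt_iff_contDiffAt.1 ((k4.contMDiffAt (E.open_target.mem_nhds k5)).comp _
      (F.at hq))).differentiableAt (by simp)).hasFDerivAt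
  have k8 : ∀ᶠ x in 𝓝 ((y, p) : W), F.Ψ x ∈ E.target :=
    (F.at hq).continuousAt.preimage_mem_nhds (E.open_target.mem_nhds k5)
  have k9 : ∀ᶠ x in 𝓝 ((y, p) : W), F'.Ψ (E.symm (F.Ψ x)) = F.Ψ x :=
    k8.mono fun x hx => by rw [← k3, E.right_inv hx]
  have k10 : ∀ᶠ x in 𝓝 ((y, p) : W), (E.symm (F.Ψ x)).1 = π (F.Ψ (x.1, p0)) := by
    filter_upwards [k8, k9, continuousAt_fst.eventually h2] with x a1 a2 a3
    rw [← a3 x.2, ← hπ _ (k2 (E.map_target a1)), a2]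
  have k11 : ContinuousAt (fun r : P2 => ((y, r) : W)) p := by fun_prop
  refine ⟨fun r => (E.symm (F.Ψ (y, r))).2, _, congrArg Prod.snd k6,
    (ContinuousLinearMap.snd ℝ P2 P2).hasFDerivAt.comp p (k7.comp p (hasFDerivAt_prodMk_right y p)),
    ?_, fun w => ?_, ?_⟩
  · filter_upwards [k11.eventually k9, k11.eventually k10] with r a1 a2
    rw [h0, hπ _ (mem_dom.2 hy')] at a2
    exact (congrArg F'.Ψ (Prod.ext a2.symm rfl : (y', (E.symm (F.Ψ (y, r))).2) = _)).trans a1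
  · have a1 := (ContinuousLinearMap.fst ℝ P2 P2).hasFDerivAt.comp _ k7
    have a2 := (HasFDerivAt.comp (g := fun z => π (F.Ψ (z, p0))) (f := Prod.fst) ((y, p) : W)
      (h1.differentiableAt (by simp)).hasFDerivAt hasFDerivAt_fst).congr_of_eventuallyEq
      (f₁ := fun x => (E.symm (F.Ψ x)).1) k10
    exact congrArg (fun A : W →L[ℝ] P2 => A w) (a1.unique a2)
  · have a1 := (mdiff F' hq').hasMFDerivAt
    rw [← k6] at a1
    have a2 := (a1.comp ((y, p) : W) k7.hasMFDerivAt).congr_of_eventuallyEq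
      (f₁ := F.Ψ) (k9.mono fun x hx => hx.symm)
    rw [← k6]
    exact a2.mfderiv

variable (a a' : Form Z 1)

/-- the class of `ι_ξ η` on the leaf is `s a + t a'` -/
def Rel (F : Fol J) (η : Form Z 2) (y ξ : P2) (s t : ℝ) : Prop := ∃ g : Z → ℝ, ∀ p,
  HasFDerivAt (fun r => g (F.Ψ (y, r)))
    ((p2 F η (y, p) (ξ, 0) - s • p1 F a (y, p) - t • p1 F a' (y, p)).comp ir) p

/-- independence on the leaves -/
def Ind (J : EndF Z) (𝓛 : Set Z → Prop) : Prop := ∀ T : Tor J, 𝓛 T.set → ∀ s t : ℝ,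
  ExT (fun x => s • a x + t • a' x) T → s = 0 ∧ t = 0

variable {a a'}

theorem Rel.trans (hu : ∀ L L', 𝓛 L → 𝓛 L' → (L ∩ L').Nonempty → L = L') {F F' : Fol J}
    (hF : ∀ y ∈ ball (0 : P2) F.ε, 𝓛 (F.leaf y)) (hF' : ∀ y ∈ ball (0 : P2) F'.ε, 𝓛 (F'.leaf y))
    {η : Form Z 2} (hl : Lag F'.ε (p2 F' η)) {q q' v v' : W} (hq : q ∈ Dom F.ε)
    (hq' : q' ∈ Dom F'.ε) (e : F.Ψ q = F'.Ψ q') (e' : dP F.Ψ q v = dP F'.Ψ q' v') {s t : ℝ}
    (h : Rel a a' F' η q'.1 v'.1 s t) : Rel a a' F η q.1 v.1 s t := by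
  obtain ⟨y, p0⟩ := q
  obtain ⟨y', p0'⟩ := q'
  obtain ⟨H, hH⟩ := Per.trans hu hF hF' hq.1 hq'.1 e
  have h1 : H v.1 = v'.1 := by
    obtain ⟨-, D, -, -, -, k1, k2⟩ := hH _ _ e
    rw [k2] at e'
    rw [← k1]
    exact congrArg Prod.fst ((F'.bij _ hq').1 e')
  obtain ⟨g, hg⟩ := h
  refine ⟨g, fun p => ?_⟩
  obtain ⟨p', e1⟩ : F.Ψ (y, p) ∈ F'.leaf y' :=
    hu _ _ (hF y hq.1) (hF' _ hq'.1) ⟨_, ⟨p0, rfl⟩, p0', e.symm⟩ ▸ ⟨p, rfl⟩
  have e2 : F.Ψ (y, p) = F'.Ψ (y', p') := e1.symm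
  obtain ⟨σ, D, k1, k2, k3, k4, k5⟩ := hH _ _ e2
  have k6 := hg p'
  rw [← k1] at k6
  refine ((k6.comp p k2).congr_of_eventuallyEq (k3.mono fun r hr => congrArg g hr.symm)).congr_fderiv
    (ContinuousLinearMap.ext fun w => ?_)
  have k7 : ∀ {k : ℕ} (α : Form Z k), pb F.Ψ α (y, p) =
      (pb F'.Ψ α (y', p')).compContinuousLinearMap D := fun α => by
    rw [pb, pb, k5, e2]
    rfl
  have k8 : ∀ (α : Form Z 1) u, p1 F α (y, p) u = p1 F' α (y', p') (D u) := fun α u => by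
    rw [p1, p1, k7, P247S.b1_apply, P247S.b1_apply,
      ContinuousAlternatingMap.compContinuousLinearMap_apply]
    congr 1
    funext i
    fin_cases i
    rfl
  have k9 : D (0, w) = (0, (D (0, w)).2) := Prod.ext (by rw [k4]; exact map_zero H) rfl
  have k10 : D (v.1, 0) = (v'.1, 0) + (0, (D (v.1, 0)).2) :=
    Prod.ext (by rw [k4]; exact h1.trans (add_zero _).symm) (zero_add _).symm
  have k11 : p2 F η (y, p) (v.1, 0) (0, w) = p2 F' η (y', p') (v'.1, 0) (0, (D (0, w)).2) := by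
    have a1 : p2 F η (y, p) (v.1, 0) (0, w) = p2 F' η (y', p') (D (v.1, 0)) (D (0, w)) := by
      rw [p2, k7, P247S.bl_apply, P247S.comp2_apply, ← P247S.bl_apply]
      rfl
    rw [a1, k10, map_add, ContinuousLinearMap.add_apply]
    nth_rewrite 1 [k9]
    nth_rewrite 2 [k9]
    rw [hl.ver (y', p') (mem_dom.2 hq'.1), add_zero]
  simp only [ContinuousLinearMap.comp_apply, ContinuousLinearMap.sub_apply,
    ContinuousLinearMap.smul_apply, ContinuousLinearMap.inr_apply, k8, k11, k1,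
    ContinuousLinearMap.coe_snd']
  rw [← k9]

theorem Ind.leaf (hi : Ind a a' J 𝓛) {F : Fol J} {y : P2} (hy : y ∈ ball (0 : P2) F.ε)
    (hL : 𝓛 (F.leaf y)) {k : P2 → ℝ} (hp : ∀ p m n, k (p + zv m n) = k p) {s t : ℝ}
    (hk : ∀ p, HasFDerivAt k ((s • p1 F a (y, p) + t • p1 F a' (y, p)).comp ir) p) :
    s = 0 ∧ t = 0 := by
  have h1 : (FolH.leafTor F hy).set = F.leaf y :=
    leaf_eq fun p => congrArg (fun q => F.Ψ (y, q)) (FolH.co_un (F.τ_pos y hy) p)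
  obtain ⟨C, hC⟩ := (cpt (continuous_iff_continuousAt.2 fun p => (hk p).continuousAt)
    hp).isBounded.exists_norm_le
  refine hi _ (h1 ▸ hL) s t ⟨fun z => k (FolH.co (F.τ y) z), C, fun z => hC _ ⟨_, rfl⟩, fun z => ?_⟩
  have h2 := (hk _).comp z (FolH.co (F.τ y)).hasFDerivAt
  refine ⟨h2.differentiableAt, fun ζ => ?_⟩
  have h3 := FolH.slice_der (A := FolH.co (F.τ y)) (z := z) (mdiff F (mem_dom.2 hy)) ζ
  erw [h2.fderiv, h3]
  simp only [ContinuousLinearMap.comp_apply, ContinuousLinearMap.add_apply,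
    ContinuousLinearMap.smul_apply, p1_apply]
  rfl

theorem Rel.uniq (hi : Ind a a' J 𝓛) {F : Fol J} {y ξ : P2} (hy : y ∈ ball (0 : P2) F.ε)
    (hL : 𝓛 (F.leaf y)) {η : Form Z 2} {s t s' t' : ℝ} (h : Rel a a' F η y ξ s t)
    (h' : Rel a a' F η y ξ s' t') : s = s' := by
  obtain ⟨g, hg⟩ := h
  obtain ⟨g', hg'⟩ := h'
  refine sub_eq_zero.1 (hi.leaf hy hL (k := fun r => g' (F.Ψ (y, r)) - g (F.Ψ (y, r)))
    (fun p m n => by rw [ψ_per']) (t := t - t') fun p => ((hg' p).sub (hg p)).congr_fderiv ?_).1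
  rw [← ContinuousLinearMap.sub_comp]
  congr 1
  module

theorem exists_act (ha : SC a) (ha' : SC a') (hi : Ind a a' J 𝓛) {F : Fol J}
    (hL : 𝓛 (F.leaf 0)) {η : Form Z 2} (hl : Lag F.ε (p2 F η)) : ∃ S : Z → ℝ,
    (∀ x ∈ F.img, ContMDiffAt (𝓡 4) 𝓘(ℝ, ℝ) ∞ S x) ∧
      ∀ q ∈ Dom F.ε, ∀ v, ∃ t, Rel a a' F η q.1 v.1 (Df S (F.Ψ q) (dP F.Ψ q v)) t := by
  obtain ⟨c, G, -, h1⟩ := per1 F ha
  obtain ⟨c', G', -, h2⟩ := per1 F ha'
  have h3 : ∀ y ∈ ball (0 : P2) F.ε, ∀ (s t : ℝ) p,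
      HasFDerivAt (fun r => s * G (F.Ψ (y, r)) + t * G' (F.Ψ (y, r)))
        ((s • p1 F a (y, p) + t • p1 F a' (y, p)).comp ir - (s • c + t • c')) p :=
    fun y hy s t p => by
      refine ((((h1 (y, p) (mem_dom.2 hy)).comp p (hasFDerivAt_prodMk_right y p)).const_mul s).add
        (((h2 (y, p) (mem_dom.2 hy)).comp p (hasFDerivAt_prodMk_right y p)).const_mul
          t)).congr_fderiv (ContinuousLinearMap.ext fun w => ?_)
      simp
      ring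
  obtain ⟨u, u', hu⟩ := dual (c := c) (c' := c') fun s t e =>
    hi.leaf (mem_ball_self F.ε_pos) hL (fun p m n => by rw [ψ_per']) fun p =>
      (h3 0 (mem_ball_self F.ε_pos) s t p).congr_fderiv (by rw [e, sub_zero])
  obtain ⟨Φ, h4, h5⟩ := hl.act
  obtain ⟨S, hS⟩ := desc0 F (g := fun q => Φ q.1 u) fun q _ m n => by simp
  have hS' := sm_of F ((h4.comp contDiffOn_fst fun q hq => hq.1).clm_apply contDiffOn_const) hS
  refine ⟨S, hS', fun q hq v => ⟨fderiv ℝ Φ q.1 v.1 u', ?_⟩⟩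
  have h6 := ((((h4.contDiffAt (isOpen_ball.mem_nhds hq.1)).differentiableAt
    (by simp)).hasFDerivAt.comp q (ContinuousLinearMap.fst ℝ P2 P2).hasFDerivAt).clm_apply
    (hasFDerivAt_const u q)).congr_of_eventuallyEq (f₁ := S ∘ F.Ψ)
    (mem_of_superset ((dom_open _).mem_nhds hq) hS)
  have h7 : Df S (F.Ψ q) (dP F.Ψ q v) = fderiv ℝ Φ q.1 v.1 u := by
    rw [Df_dP F hq (hS' _ ⟨q, hq, rfl⟩), h6.fderiv]
    simp
  obtain ⟨g, k1, k2⟩ := h5 q.1 hq.1 v.1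
  obtain ⟨g', k3⟩ := desc0 F (g := fun x => g x.2) fun x _ m n => k1 _ m n
  refine ⟨fun x => g' x - (fderiv ℝ Φ q.1 v.1 u * G x + fderiv ℝ Φ q.1 v.1 u' * G' x), fun p => ?_⟩
  have k4 : (fun r => g' (F.Ψ (q.1, r))) = g := funext fun r => k3 (q.1, r) (mem_dom.2 hq.1)
  refine ((k4 ▸ k2 p).sub (h3 q.1 hq.1 _ _ p)).congr_fderiv ?_
  rw [← hu, h7, sub_sub_sub_cancel_right, ← ContinuousLinearMap.sub_comp, sub_sub]

theorem ker1 (c : P2 →L[ℝ] ℝ) : ∃ w ≠ 0, c w = 0 := by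
  by_cases h : c (1, 0) = 0
  · exact ⟨(1, 0), by simp, h⟩
  · refine ⟨c (0, 1) • (1, 0) - c (1, 0) • (0, 1), fun e => h ?_, ?_⟩
    · simpa using congrArg Prod.snd e
    · rw [map_sub, map_smul, map_smul, smul_eq_mul, smul_eq_mul]
      ring

theorem lag_nd {B : Bil W} (h0 : ∀ w w' : P2, B (0, w) (0, w') = 0)
    (h1 : ∀ u, (∀ v, B v u = 0) → u = 0) {ξ : P2} (h : ∀ w, B (ξ, 0) (0, w) = 0) : ξ = 0 := by
  by_contra hne
  obtain ⟨w, hw, k⟩ := ker1 ((B ((-ξ.2, ξ.1), 0)).comp ir)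
  have hn : ξ.1 ^ 2 + ξ.2 ^ 2 ≠ 0 := fun e => hne (Prod.ext
    (show ξ.1 = 0 by nlinarith [sq_nonneg ξ.1, sq_nonneg ξ.2])
    (show ξ.2 = 0 by nlinarith [sq_nonneg ξ.1, sq_nonneg ξ.2]))
  refine hw (congrArg Prod.snd (h1 (0, w) fun v => mul_left_cancel₀ hn ?_))
  have e : (ξ.1 ^ 2 + ξ.2 ^ 2) • v = (v.1.1 * ξ.1 + v.1.2 * ξ.2) • ((ξ, 0) : W) +
      (v.1.2 * ξ.1 - v.1.1 * ξ.2) • ((-ξ.2, ξ.1), 0) + (0, (ξ.1 ^ 2 + ξ.2 ^ 2) • v.2) := by
    refine Prod.ext (Prod.ext ?_ ?_) (by simp) <;> simp <;> ring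
  have k' : B ((-ξ.2, ξ.1), 0) (0, w) = 0 := k
  have := congrArg (fun x => B x (0, w)) e
  simp only [map_add, map_smul, ContinuousLinearMap.add_apply, ContinuousLinearMap.smul_apply, h,
    k', h0, smul_zero, add_zero] at this
  rw [mul_zero]
  exact this

theorem pair_zero (P : PairJ Z) (j : Fin 2) (x : Z) (u : TangentSpace (𝓡 4) x) :
    P.η j x ![u, P.J x u] = 0 :=
  anti_zero (V := HS.E4) (P.η j x) (P.J x) (P.ac.sq x) (P.anti j x) u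

theorem Rel.zero (P : PairJ Z) {F : Fol P.J} {y ξ : P2} (hy : y ∈ ball (0 : P2) F.ε) {t t' : ℝ}
    (h : Rel a a' F (P.η 0) y ξ 0 t) (h' : Rel a a' F (P.η 1) y ξ 0 t') : ξ = 0 := by
  obtain ⟨α, β, h0, h1⟩ : ∃ α β : ℝ, ¬ (α = 0 ∧ β = 0) ∧ α * t + β * t' = 0 := by
    by_cases k : t = 0
    · exact ⟨1, 0, by simp, by simp [k]⟩
    · exact ⟨-t', t, fun e => k e.2, by ring⟩
  obtain ⟨g, hg⟩ := h
  obtain ⟨g', hg'⟩ := h'
  have h2 := fun p => ((hg p).const_mul α).fun_add ((hg' p).const_mul β)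
  obtain ⟨_, ⟨p, rfl⟩, h3⟩ := (cpt (continuous_iff_continuousAt.2 fun p => (h2 p).continuousAt)
    fun p m n => by rw [ψ_per']).exists_isGreatest (range_nonempty _)
  have h4 := IsLocalMax.hasFDerivAt_eq_zero (a := p) (Eventually.of_forall fun r : P2 => h3 ⟨r, rfl⟩)
    (h2 p)
  have hq : ((y, p) : W) ∈ Dom F.ε := mem_dom.2 hy
  refine lag_nd (B := α • p2 F (P.η 0) (y, p) + β • p2 F (P.η 1) (y, p)) (fun w w' => ?_)
    (fun u hu => ?_) fun w => ?_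
  · simp [(lag F (P.sc _) (pair_zero P _)).ver _ hq]
  · refine (F.bij _ hq).1 ((Tub.anti_nd (α • rf (P.η 0) (F.Ψ (y, p)) + β • rf (P.η 1) (F.Ψ (y, p)))
      (P.J (F.Ψ (y, p))) (P.ac.sq (F.Ψ (y, p))) (fun u v => ?_) (fun k => h0 (P.ind _ α β k)) _ fun v => ?_).trans
      (map_zero (dP F.Ψ (y, p))).symm)
    · have k0 := P.anti 0 (F.Ψ (y, p)) u v
      have k1 := P.anti 1 (F.Ψ (y, p)) u v
      exact (congrArg₂ (fun x z : ℝ => α * x + β * z) k0 k1).trans (by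
        show _ = -(α * P.η 0 _ ![u, v] + β * P.η 1 _ ![u, v])
        ring)
    · obtain ⟨v, rfl⟩ := (F.bij _ hq).2 v
      have := hu v
      simp only [ContinuousLinearMap.add_apply, ContinuousLinearMap.smul_apply, p2_apply] at this
      exact this
  · have := congrArg (fun A : P2 →L[ℝ] ℝ => A w) h4
    simp only [ContinuousLinearMap.add_apply, ContinuousLinearMap.smul_apply,
      ContinuousLinearMap.comp_apply, ContinuousLinearMap.sub_apply, smul_eq_mul,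
      ContinuousLinearMap.zero_apply, ContinuousLinearMap.inr_apply] at this ⊢
    linear_combination this + p1 F a' (y, p) (0, w) * h1

end Per

open Per in
/-- action coordinates -/
theorem act2 (Z : Type) [TopologicalSpace Z] [ChartedSpace HS.E4 Z] [IsManifold (𝓡 4) ∞ Z]
    [T2Space Z] (P : PairJ Z) (𝓛 : Set Z → Prop) (hF : Foli P.J 𝓛) (a a' : Form Z 1) (ha : SC a)
    (ha' : SC a') (hi : ∀ T : Tor P.J, 𝓛 T.set → ∀ s t : ℝ,
      ExT (fun x => s • a x + t • a' x) T → s = 0 ∧ t = 0) :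
    ∃ b : Fin 2 → Form Z 1, (∀ j, SC (b j)) ∧ ∀ T : Tor P.J, 𝓛 T.set → ∀ z,
      ∀ v : TangentSpace (𝓡 4) (T.u z), (∀ j, b j (T.u z) ![v] = 0) → ∃ ζ, v = dm T.u z ζ := by
  have h1 : ∀ x, ∃ F : Fol P.J, x ∈ F.img ∧ ∀ y ∈ ball (0 : P2) F.ε, 𝓛 (F.leaf y) := fun x => by
    obtain ⟨L, hL, hx⟩ := hF.cov x
    obtain ⟨F, rfl, k⟩ := hF.fol L hL
    exact ⟨F, F.leaf_sub (mem_ball_self F.ε_pos) hx, k⟩
  choose F hx hg using h1
  have hl := fun x j => lag (F x) (P.sc j) (pair_zero P j)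
  choose S hS hR using fun x j => exists_act ha ha' hi (hg x 0 (mem_ball_self (F x).ε_pos)) (hl x j)
  have key : ∀ j x0, ∀ x ∈ (F x0).img, d0 (S x j) x = d0 (S x0 j) x := by
    rintro j x0 x ⟨q, hq, e⟩
    obtain ⟨q', hq', e'⟩ := hx x
    refine congrArg P247M.one (ContinuousLinearMap.ext fun u => ?_)
    obtain ⟨v, hv⟩ := ((F x0).bij q hq).2 u
    obtain ⟨v', hv'⟩ := ((F x).bij q' hq').2 u
    obtain ⟨t, k⟩ := hR x0 j q hq v
    obtain ⟨t', k'⟩ := hR x j q' hq' v'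
    have := Rel.uniq hi hq.1 (hg x0 _ hq.1) (k'.trans hF.uniq (hg x0) (hg x) (hl x j) hq hq'
      (e.trans e'.symm) (hv.trans hv'.symm)) k
    rwa [e, e', show dP (F x0).Ψ q v = u from hv, show dP (F x).Ψ q' v' = u from hv'] at this
  have ev : ∀ j x0, (fun x => d0 (S x j) x) =ᶠ[𝓝 x0] d0 (S x0 j) := fun j x0 =>
    mem_of_superset ((img_open _).mem_nhds (hx x0)) (key j x0)
  refine ⟨fun j => hs fun x => d0 (S x j) x, fun j => P247M.sc_iff.2 ⟨fun x => ?_, fun x => ?_⟩,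
    fun T hT z v hv => ?_⟩
  · exact (P247M.smAt_d0 (img_open _) (hS x j) (hx x)).congr (ev j x)
  · exact (P267.H175.dF_congr (ev j x)).trans (P247M.dF_d0 (img_open _) (hS x j) (hx x))
  · obtain ⟨⟨y, p⟩, hq, e⟩ := hx (T.u z)
    obtain ⟨⟨ξ, w⟩, hw⟩ := ((F _).bij _ hq).2 v
    have k : ∀ j, ∃ t, Rel a a' (F (T.u z)) (P.η j) y ξ 0 t := fun j => by
      have k1 := hR _ j _ hq (ξ, w)
      rwa [e, show dP (F (T.u z)).Ψ (y, p) (ξ, w) = v from hw,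
        show Df (S (T.u z) j) (T.u z) v = 0 from hv j] at k1
    obtain ⟨t, k0⟩ := k 0
    obtain ⟨t', k1⟩ := k 1
    obtain rfl := k0.zero P hq.1 k1
    have k2 : (F (T.u z)).leaf y = T.set := hF.uniq _ _ (hg _ y hq.1) hT ⟨_, ⟨p, e⟩, z, rfl⟩
    have k3 : HasFDerivAt (fun s : ℝ => ((y, p + s • w) : W))
        ((1 : ℝ →L[ℝ] ℝ).smulRight ((0, w) : W)) 0 := by
      have := (hasDerivAt_const (0 : ℝ) y).prodMk
        (((hasDerivAt_id (0 : ℝ)).smul_const w).const_add p)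
      rw [one_smul] at this
      exact this.hasFDerivAt
    have k5 : ((y, p + (0 : ℝ) • w) : W) = (y, p) := by simp
    have k4 : HasMFDerivAt 𝓘(ℝ, W) (𝓡 4) (F (T.u z)).Ψ (y, p + (0 : ℝ) • w)
        (dP (F (T.u z)).Ψ (y, p)) := by
      rw [k5]
      exact (mdiff _ hq).hasMFDerivAt
    have k6 := k4.comp (0 : ℝ) k3.hasMFDerivAt
    obtain ⟨ζ, hζ⟩ := (tang0 Z P.J P.ac.sq _ k6.mdifferentiableAt).1 T z
      (.of_forall fun s => k2 ▸ ⟨p + s • w, rfl⟩) ((congrArg (F (T.u z)).Ψ k5).trans e)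
    refine ⟨ζ, (hw.symm.trans ?_).trans hζ⟩
    rw [k6.mfderiv]
    exact congrArg (dP (F (T.u z)).Ψ (y, p)) (one_smul ℝ ((0, w) : W)).symm

end Vale.Agent.P247D
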