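import Vale.Agent.P247D.Sta
import Vale.Agent.P247Y.Dc
import Vale.Agent.P247M.LBOps

/-!
# P247, block FOL: assembly
-/

set_option linter.all false

open scoped Manifold ContDiff Topology
open Set Filter Metric Function MeasureTheory

noncomputable section

namespace Vale.Agent.P247D

open Vale.Agent.P247.SCY hiding dm
open Vale.Agent.P247.SCY.HS
open Vale.Agent.P247X
open Vale.Agent.P247Y
open Vale.Agent.P247M
open Vale.Agent.P267.H175 (SmAt dF)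
open Vale.Agent.P247.H74 (P2)

namespace AsH

theorem ker_zero {L L' : ℂ →L[ℝ] ℝ} (h : ∀ s t : ℝ, (∀ ζ, s * L ζ + t * L' ζ = 0) → s = 0 ∧ t = 0)
    {ζ : ℂ} (h1 : L ζ = 0) (h2 : L' ζ = 0) : ζ = 0 := by
  by_contra h0
  have k : ∀ (M : ℂ →L[ℝ] ℝ), M ζ = 0 → ∀ ξ, M ξ = (ξ / ζ).im * M (Complex.I * ζ) := by
    intro M hM ξ
    have e : ξ = (ξ / ζ).re • ζ + (ξ / ζ).im • (Complex.I * ζ) := by
      rw [Complex.real_smul, Complex.real_smul, ← mul_assoc, ← add_mul, Complex.re_add_im,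
        div_mul_cancel₀ _ h0]
    conv_lhs => rw [e]
    rw [map_add, map_smul, map_smul, hM, smul_zero, zero_add, smul_eq_mul]
  obtain ⟨-, h3⟩ := h (L' (Complex.I * ζ)) (-L (Complex.I * ζ)) fun ξ => by
    rw [k L h1 ξ, k L' h2 ξ]
    ring
  exact one_ne_zero (h 1 0 fun ξ => by rw [k L h1 ξ, neg_eq_zero.1 h3]; ring).1

theorem lin_bdd {L : ℂ →L[ℝ] ℝ} {g : ℂ → ℝ} {C : ℝ} (hb : ∀ z, |g z| ≤ C)
    (hg : ∀ z, HasFDerivAt g L z) (ζ : ℂ) : L ζ = 0 := by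
  have h1 : ∀ z, HasFDerivAt (fun z => g z - L z) (0 : ℂ →L[ℝ] ℝ) z := fun z =>
    ((hg z).sub L.hasFDerivAt).congr_fderiv (sub_self _)
  have h2 := is_const_of_fderiv_eq_zero (fun z => (h1 z).differentiableAt) fun z => (h1 z).fderiv
  by_contra h0
  have h3 := h2 (((2 * C + 1) / L ζ) • ζ) 0
  rw [map_smul, smul_eq_mul, div_mul_cancel₀ _ h0, map_zero] at h3
  have h4 := abs_le.1 (hb (((2 * C + 1) / L ζ) • ζ))
  have h5 := abs_le.1 (hb 0)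
  linarith [h4.2, h5.1]

variable {X : Type} [Cl4 X] {μ : Form X 4} {w : Tri X}

theorem stokes (bb : BB2) (hμ : Volume μ) (hw : Hypersymplectic μ w) (T : Tor (Jw w))
    {H : X → ℝ} (hH : ContMDiff (𝓡 4) 𝓘(ℝ, ℝ) ∞ H) {e : Form X 1} (he : SC e) {c : Form X 2}
    {s : ℝ} (h : ∀ z, s * pull2 c T.u z =
      dfr H (T.u z) (dm T.u z 1) * e (T.u z) ![dm T.u z Complex.I] -
        dfr H (T.u z) (dm T.u z Complex.I) * e (T.u z) ![dm T.u z 1]) : s * T.int c = 0 := by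
  obtain ⟨K, -, -, k⟩ := (bb.emb X μ hμ w hw).2 T
  have h1 : ∀ x, SmAt (fun y => H y • rf e y) x := fun x => smAt_fsmul (hH x) ((sc_iff.1 he).1 x)
  have h2 : HS.Smooth (hs (dF fun y => H y • rf e y)) := smooth_iff.2 (smAt_dF' h1)
  rw [← (bb.irr X μ hμ w hw K).1.closed _ h2 (exact_iff.2 ⟨_, h1, rfl⟩), k _ (cont_of_smooth h2),
    Tor.int, Tor.int, ← integral_const_mul]
  refine integral_congr_ae (Eventually.of_forall fun z => (h z).trans (Eq.symm ?_))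
  have k5 : dF (fun y => H y • rf e y) (T.u z) = wd (Df H (T.u z)) (rf e (T.u z)) := by
    rw [dF_fsmul (hH _) ((sc_iff.1 he).1 _), (sc_iff.1 he).2, smul_zero, add_zero]
  refine (congrArg (fun β : Alt 2 => β ![dm T.u z 1, dm T.u z Complex.I]) k5).trans ?_
  refine (wd_one' _ _ _ _).trans ?_
  exact congrArg₂ (· - ·) (congrArg (· * _) (mfderiv_eq_Df (hH _) _).symm)
    (congrArg (· * _) (mfderiv_eq_Df (hH _) _).symm)

theorem dfr_comb {f f' : X → ℝ} (hf : ContMDiff (𝓡 4) 𝓘(ℝ, ℝ) ∞ f)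
    (hf' : ContMDiff (𝓡 4) 𝓘(ℝ, ℝ) ∞ f') (s t : ℝ) (x : X) (v : E4) :
    dfr (fun y => s * f y + t * f' y) x v = s * dfr f x v + t * dfr f' x v := by
  have h3 : SmF (fun y => s * f y) x := contMDiffAt_const.mul (hf x)
  have h4 : SmF (fun y => t * f' y) x := contMDiffAt_const.mul (hf' x)
  have h5 : SmF (fun y => s * f y + t * f' y) x := h3.add h4
  refine (mfderiv_eq_Df h5 v).trans ?_
  rw [Df_add h3 h4, Df_const_mul _ (hf x), Df_const_mul _ (hf' x)]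
  exact congrArg₂ (· + ·) (congrArg (s * ·) (mfderiv_eq_Df (hf x) v).symm)
    (congrArg (t * ·) (mfderiv_eq_Df (hf' x) v).symm)

/-- `a - d f` -/
def cor (a : Form X 1) (f : X → ℝ) : Form X 1 := hs (rf a - d0 f)

theorem cor_sc {a : Form X 1} (ha : SC a) {f : X → ℝ} (hf : ContMDiff (𝓡 4) 𝓘(ℝ, ℝ) ∞ f) :
    SC (cor a f) := by
  have h1 := fun x => smAt_d0 isOpen_univ (fun y _ => hf y) (mem_univ x)
  refine sc_iff.2 ⟨fun x => smAt_sub ((sc_iff.1 ha).1 x) (h1 x), fun x => ?_⟩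
  rw [cor, rf_hs, dF_sub ((sc_iff.1 ha).1 x) (h1 x), (sc_iff.1 ha).2,
    dF_d0 isOpen_univ (fun y _ => hf y) (mem_univ x), sub_zero]

theorem cor_apply (a : Form X 1) {f : X → ℝ} (hf : ContMDiff (𝓡 4) 𝓘(ℝ, ℝ) ∞ f) (x : X) (v : E4) :
    cor a f x ![v] = a x ![v] - dfr f x v :=
  congrArg (a x ![v] - ·) (mfderiv_eq_Df (hf x) v).symm

end AsH

open AsH in
theorem asmd : ASMD_statement := by
  intro bb hR hA hT hC X _ μ hμ w hw E hE hK hne a a' c ha ha' hc hW h0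
  have nz : ∀ K : Irr (Jw w), K.T c ≠ 0 := fun K => by
    obtain ⟨m, h1⟩ := hK K
    have h2 := (bb.irr X μ hμ w hw K).2.1
    rw [h1.2 _ (hyp_sc hw 2), P247X.pair_smul_left] at h2
    rw [h1.2 _ hc, P247X.pair_smul_left]
    exact mul_ne_zero (left_ne_zero_of_mul h2.ne') h0
  obtain ⟨𝓛, h𝓛⟩ := hA bb X μ hμ w hw E hE
    (fun K => ⟨fun h => nz K (hR X _ K h a a' c ha ha' hc hW), hK K⟩) hne
  have hJ := (pairW hw).ac.sq
  obtain ⟨f, f1, f2⟩ := hT bb.folb X _ hJ 𝓛 h𝓛 a ha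
  obtain ⟨f', g1, g2⟩ := hT bb.folb X _ hJ 𝓛 h𝓛 a' ha'
  have key : ∀ T : Tor (Jw w), 𝓛 T.set → ∃ L L' : ℂ →L[ℝ] ℝ,
      (∀ z ζ, a (T.u z) ![dm T.u z ζ] = L ζ + dfr f (T.u z) (dm T.u z ζ)) ∧
      (∀ z ζ, a' (T.u z) ![dm T.u z ζ] = L' ζ + dfr f' (T.u z) (dm T.u z ζ)) ∧
      ∀ s t : ℝ, (∀ ζ, s * L ζ + t * L' ζ = 0) → s = 0 ∧ t = 0 := by
    intro T hT
    obtain ⟨L, h1⟩ := f2 T hT
    obtain ⟨L', h2⟩ := g2 T hT
    refine ⟨L, L', h1, h2, fun s t h => ?_⟩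
    obtain ⟨K, -, -, k⟩ := (bb.emb X μ hμ w hw).2 T
    have h3 : T.int c ≠ 0 := k c hc.cont ▸ nz K
    have h4 : ContMDiff (𝓡 4) 𝓘(ℝ, ℝ) ∞ fun y => s * f y + t * f' y :=
      (contMDiff_const.mul f1).add (contMDiff_const.mul g1)
    have h5 : ∀ z ζ, dfr (fun y => s * f y + t * f' y) (T.u z) (dm T.u z ζ) =
        s * a (T.u z) ![dm T.u z ζ] + t * a' (T.u z) ![dm T.u z ζ] := fun z ζ => by
      rw [h1, h2]
      refine (dfr_comb f1 g1 s t _ _).trans ?_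
      linear_combination -h ζ
    refine ⟨(mul_eq_zero.1 (stokes bb hμ hw T h4 ha' fun z => ?_)).resolve_right h3,
      neg_eq_zero.1 ((mul_eq_zero.1 (stokes bb hμ hw T h4 ha fun z => ?_)).resolve_right h3)⟩
    · rw [h5, h5, pull2, hW]
      ring
    · rw [h5, h5, pull2, hW]
      ring
  obtain ⟨b, b1, b2⟩ := hC bb.folb X (pairW hw) 𝓛 h𝓛 a a' ha ha' fun T hT s t => by
    rintro ⟨g, C, k1, k2⟩
    obtain ⟨L, L', h1, h2, h3⟩ := key T hT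
    have h4 : ContMDiff (𝓡 4) 𝓘(ℝ, ℝ) ∞ fun y => s * f y + t * f' y :=
      (contMDiff_const.mul f1).add (contMDiff_const.mul g1)
    obtain ⟨C', k3⟩ := isCompact_univ.exists_bound_of_continuousOn h4.continuous.continuousOn
    refine h3 s t (lin_bdd (L := s • L + t • L')
      (g := fun z => g z - (s * f (T.u z) + t * f' (T.u z))) (C := C + C')
      (fun z => (abs_sub _ _).trans (add_le_add (k1 z) (k3 _ trivial))) fun z => ?_)
    have k4 := (((h4 _).mdifferentiableAt (by simp)).hasMFDerivAt.comp z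
      (Tor.mdiff T z).hasMFDerivAt).hasFDerivAt
    refine ((k2 z).1.hasFDerivAt.sub k4).congr_fderiv (ContinuousLinearMap.ext fun ξ => ?_)
    refine (congrArg₂ (· - ·) ((k2 z).2 ξ) (dfr_comb f1 g1 s t _ _)).trans ?_
    change s * a (T.u z) ![dm T.u z ξ] + t * a' (T.u z) ![dm T.u z ξ] -
      (s * dfr f (T.u z) (dm T.u z ξ) + t * dfr f' (T.u z) (dm T.u z ξ)) = s * L ξ + t * L' ξ
    rw [h1, h2]
    ring
  refine ⟨![b 0, b 1, cor a f, cor a' f'], fun i => ?_, fun x v hv => ?_⟩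
  · fin_cases i
    exacts [b1 0, b1 1, cor_sc ha f1, cor_sc ha' g1]
  obtain ⟨L₀, h1, h2⟩ := h𝓛.cov x
  obtain ⟨F, rfl, -⟩ := h𝓛.fol L₀ h1
  obtain ⟨T, -, h3⟩ := (bb.folb X _ F).2.1 0 (mem_ball_self F.ε_pos)
  rw [← leaf_eq h3] at h1 h2
  obtain ⟨z, rfl⟩ := h2
  obtain ⟨ζ, rfl⟩ := b2 T h1 z v (Fin.forall_fin_two.2 ⟨hv 0, hv 1⟩)
  obtain ⟨L, L', k1, k2, k3⟩ := key T h1
  have k4 := (cor_apply a f1 _ _).symm.trans (hv 2)
  have k5 := (cor_apply a' g1 _ _).symm.trans (hv 3)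
  rw [ker_zero k3 (ζ := ζ) (by linear_combination k4 - k1 z ζ) (by linear_combination k5 - k2 z ζ)]
  exact map_zero _

end Vale.Agent.P247D
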