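import Vale.Agent.P247D.Ratz
import Vale.Agent.P247A.Spec2
import Vale.Agent.P247C.All
import Vale.Agent.P247Y.Cv

/-!
# P247, block FOL: bridge to the statements of stage 2
-/

set_option linter.all false

open scoped Manifold ContDiff Topology
open Set Filter Metric Function

noncomputable section

namespace Vale.Agent.P247D

open Vale.Agent.P247.SCY hiding dm
open Vale.Agent.P247.SCY.HS
open Vale.Agent.P247X
open Vale.Agent.P247M
open Vale.Agent.P267.H175 (SmAt dF)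
open Vale.Agent.P267
open Vale.Agent.P247A (Circ ang IsCup NSis)

variable {X : Type} [Cl4 X]

/-- products of closed one-forms are smooth and closed -/
theorem sc_of_isW {a a' : Form X 1} {c : Form X 2} (ha : SC a) (ha' : SC a') (h : IsW a a' c) :
    SC c := by
  have key : ∀ x, SmAt (rf c) x ∧ dF (rf c) x = 0 := fun x => by
    obtain ⟨f, hf⟩ := RzH.pot_ex ha x
    obtain ⟨V, h1, h2, h3⟩ := eventually_nhds_iff.1 hf
    have h4 : ∀ y ∈ V, SmAt (fun y => f y • rf a' y) y := fun y hy =>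
      smAt_fsmul (h1 y hy).1 ((sc_iff.1 ha').1 y)
    have h5 : rf c =ᶠ[𝓝 x] dF fun y => f y • rf a' y := by
      filter_upwards [h2.mem_nhds h3] with y hy
      rw [dF_fsmul (h1 y hy).1 ((sc_iff.1 ha').1 y), (sc_iff.1 ha').2, smul_zero, add_zero]
      refine alt2_ext fun u v => (h y u v).trans (Eq.symm ((wd_one' _ _ _ _).trans ?_))
      exact congrArg₂ (· - ·) (congrArg (· * _) (congrArg (fun b : Alt 1 => b ![u]) (h1 y hy).2))
        (congrArg (· * _) (congrArg (fun b : Alt 1 => b ![v]) (h1 y hy).2))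
    exact ⟨(H175.smAt_dF h2 h4 h3).congr h5, (H175.dF_congr h5).trans (H175.dF_dF h2 h4 h3)⟩
  exact sc_iff.2 ⟨fun x => (key x).1, fun x => (key x).2⟩

/-- the angular form -/
def angF (g : X → ℂ) : Form X 1 := hs ((2 * Real.pi)⁻¹ • P247C.dArg g)

theorem angF_sc {g : X → ℂ} (h : Circ g) : SC (angF g) := by
  have h1 := fun x => P247C.smAt_dArg isOpen_univ (fun y _ => h.1 y) (mem_univ x)
  refine sc_iff.2 ⟨fun x => (h1 x).smul _, fun x => ?_⟩
  rw [angF, rf_hs, H175.dF_smul,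
    P247C.dF_dArg isOpen_univ (fun y _ => h.1 y) (fun y _ => h.2 y) (mem_univ x), smul_zero]

theorem angF_apply {g : X → ℂ} (h : Circ g) (x : X) (v : TangentSpace (𝓡 4) x) :
    angF g x ![v] = ang g x v :=
  (congrArg ((2 * Real.pi)⁻¹ * ·) (P247C.dArg_apply (h.1 x) v)).trans (inv_mul_eq_div _ _)

theorem isW_cup {g g' : X → ℂ} (h : Circ g) (h' : Circ g') {β : Form X 2} (hβ : IsCup g g' β) :
    IsW (angF g) (angF g') β := fun x u v => by
  rw [angF_apply h, angF_apply h, angF_apply h', angF_apply h', hβ]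

theorem sc_cup {g g' : X → ℂ} (h : Circ g) (h' : Circ g') {β : Form X 2} (hβ : IsCup g g' β) :
    SC β := sc_of_isW (angF_sc h) (angF_sc h') (isW_cup h h' hβ)

variable {μ : Form X 4} {w : Tri X}

/-- the class of a curve is a Chern form -/
theorem irr_lb (hμ : Volume μ) (hw : Hypersymplectic μ w) (K : Irr (Jw w)) :
    ∃ L : LB X, IsCls μ K.T L.F :=
  P247C.cls_of P247C.dich P247C.loc P247C.thom P247C.deg hμ hw K

theorem irr_cls (hμ : Volume μ) (hw : Hypersymplectic μ w) {L : LB X} (h : NSis μ w L)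
    (K : Irr (Jw w)) : ∃ m : ℤ, IsCls μ K.T fun x => (m : ℝ) • L.F x := by
  obtain ⟨L', h1⟩ := irr_lb hμ hw K
  have h2 := P247Y.PCur.w_zero hw (P247C.irr_cyc K).pcur
  obtain ⟨m, h3⟩ := h.gen L' ((h1.2 _ (hyp_sc hw 0)).symm.trans (h2 0))
    ((h1.2 _ (hyp_sc hw 1)).symm.trans (h2 1))
  exact ⟨m, L.F_sc.smul _, fun φ hφ =>
    (h1.2 φ hφ).trans (h3.pair hμ hw L'.F_sc.1 (L.F_sc.smul _).1 hφ)⟩

theorem torx_of (hE : EMB_statement) : P247A.TORX_statement := by
  intro X _ μ hμ w hw K α h1 h2 g g' β hg hg' hβ h0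
  obtain ⟨S, hS⟩ := ((P247C.adj X μ hμ w hw K α h1).2.2 h2).resolve_right fun h =>
    h0 (ratz X _ K h _ _ β (angF_sc hg) (angF_sc hg') (sc_cup hg hg' hβ) (isW_cup hg hg' hβ))
  obtain ⟨K', k1, -, k3⟩ := (hE X μ hμ w hw).2 S
  refine ⟨S, hS, h1.1, fun φ hφ => ?_⟩
  rw [← k3 φ hφ.cont, ← h1.2 φ hφ]
  exact (P247C.irr_cyc K').uniq (P247Y.pairW hw).ac.sq
    (by rw [k1, hS]; exact P247C.irr_cyc K) hφ.cont

theorem fol_of (hE : EMB_statement) (h : FOL2_statement) : P247A.FOL_statement := by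
  intro X _ μ hμ w hw L hL h0 g g' β hg hg' hβ h1 S _
  exact h X μ hμ w hw L.F h0 (irr_cls hμ hw hL) ⟨((hE X μ hμ w hw).2 S).choose⟩ _ _ β (angF_sc hg)
    (angF_sc hg') (sc_cup hg hg' hβ) (isW_cup hg hg' hβ) h1

end Vale.Agent.P247D
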