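import Vale.Agent.P247D.Sta
import Vale.Agent.P247Y.Dc
import Vale.Agent.P247Y.Prt

/-!
# P247, block FOL: row FOLA
-/

set_option linter.all false

open scoped Manifold ContDiff Topology
open Set Filter Metric Function

noncomputable section

namespace Vale.Agent.P247D

open Vale.Agent.P247.SCY hiding dm
open Vale.Agent.P247.SCY.HS
open Vale.Agent.P247X
open Vale.Agent.P247Y
open Vale.Agent.P247.H74 (P2)

namespace FaH

variable {X : Type} [Cl4 X] {μ : Form X 4} {w : Tri X} {E : Form X 2}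

/-- the hypotheses -/
structure Hy (μ : Form X 4) (w : Tri X) (E : Form X 2) : Prop where
  bb : BB2
  hμ : Volume μ
  hw : Hypersymplectic μ w
  EE : pair μ E E = 0
  cls : ∀ K : Irr (Jw w), ¬ Rat K.K ∧ ∃ m : ℤ, IsCls μ K.T fun x => (m : ℝ) • E x

variable (h : Hy μ w E)
include h

theorem Hy.zero (K K' : Irr (Jw w)) : ∃ α, IsCls μ K'.T α ∧ K.T α = 0 := by
  obtain ⟨m, h1⟩ := (h.cls K).2
  obtain ⟨m', h2⟩ := (h.cls K').2
  refine ⟨_, h2, ?_⟩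
  rw [h1.2 _ h2.1, pair_smul_left, P247.SCY.pair_comm, pair_smul_left, h.EE, mul_zero, mul_zero]

theorem Hy.disj {K K' : Irr (Jw w)} (hne : K.K ≠ K'.K) : Disjoint K.K K'.K := by
  obtain ⟨α, h1, h2⟩ := h.zero K K'
  obtain ⟨k1, k2, -⟩ := h.bb.pos X μ h.hμ w h.hw K K' hne α h1
  rw [disjoint_iff_inter_eq_empty, ← ncard_eq_zero k1]
  rw [h2] at k2
  exact_mod_cast le_antisymm k2 (Nat.cast_nonneg _)

theorem Hy.tor (K : Irr (Jw w)) : ∃ S : Tor (Jw w), S.set = K.K := by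
  obtain ⟨α, h1, h2⟩ := h.zero K K
  exact ((h.bb.adj X μ h.hμ w h.hw K α h1).2.2 h2).resolve_right (h.cls K).1

theorem Hy.eq {T T' : Tor (Jw w)} (hn : (T.set ∩ T'.set).Nonempty) : T.set = T'.set := by
  obtain ⟨K, k1, -⟩ := (h.bb.emb X μ h.hμ w h.hw).2 T
  obtain ⟨K', k2, -⟩ := (h.bb.emb X μ h.hμ w h.hw).2 T'
  rw [← k1, ← k2] at hn ⊢
  by_contra hne
  exact hn.ne_empty (h.disj hne).inter_eq

theorem Hy.area {T T' : Tor (Jw w)} (e : T'.set = T.set) : T'.int (w 2) = T.int (w 2) := by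
  obtain ⟨K, k1, -, k3⟩ := (h.bb.emb X μ h.hμ w h.hw).2 T
  obtain ⟨K', k2, -, k4⟩ := (h.bb.emb X μ h.hμ w h.hw).2 T'
  have hc := (hyp_sc h.hw 2).cont
  rw [← k3 _ hc, ← k4 _ hc,
    (h.bb.irr X μ h.hμ w h.hw K).2.2.2.2 K' (by rw [k1, k2, e]) _ hc]

theorem Hy.int (T : Tor (Jw w)) : T.int (w 2) / pair μ E (w 2) ∈ range ((↑) : ℤ → ℝ) ∧
    pair μ E (w 2) ≠ 0 := by
  obtain ⟨K, -, -, k3⟩ := (h.bb.emb X μ h.hμ w h.hw).2 T
  obtain ⟨m, h1⟩ := (h.cls K).2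
  have h2 := h1.2 _ (hyp_sc h.hw 2)
  have h3 := (h.bb.irr X μ h.hμ w h.hw K).2.1
  rw [pair_smul_left] at h2
  have h4 : pair μ E (w 2) ≠ 0 := fun e => by
    rw [h2, e, mul_zero] at h3
    exact h3.false
  exact ⟨⟨m, by rw [← k3 _ (hyp_sc h.hw 2).cont, h2, mul_div_cancel_right₀ _ h4]⟩, h4⟩

/-- the area is constant in a family -/
theorem Hy.fam (F : Fol (Jw w)) {y y' : P2} (hy : y ∈ ball (0 : P2) F.ε)
    (hy' : y' ∈ ball (0 : P2) F.ε) {T : Tor (Jw w)} (e : T.set = F.leaf y) :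
    ∃ T' : Tor (Jw w), T'.set = F.leaf y' ∧ T'.int (w 2) = T.int (w 2) := by
  have : Nonempty (Tor (Jw w)) := ⟨T⟩
  choose! K k1 k2 using (h.bb.folb X _ F).2.1
  refine ⟨K y', leaf_eq (k2 y' hy'), ?_⟩
  rw [← h.area ((leaf_eq (k2 y hy)).trans e.symm), ← div_left_inj' (h.int T).2]
  exact isPreconnected_ball.constant_of_mapsTo
    Int.isClosedEmbedding_coe_real.isEmbedding.isDiscrete_range
    ((PrtH.int_cont isOpen_ball F.smooth k2 (hyp_sc h.hw 2).cont).div_const _)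
    (fun z _ => (h.int _).1) hy' hy

theorem Hy.lim (ι : Type) (𝒰 : Ultrafilter ι) (K : ι → Tor (Jw w)) (M : ℝ)
    (hK : ∀ n, (K n).int (w 2) ≤ M) (x : X)
    (hacc : ∀ U ∈ 𝓝 x, ∀ᶠ n in (𝒰 : Filter ι), (U ∩ (K n).set).Nonempty) :
    ∃ S : Tor (Jw w), x ∈ S.set ∧
      ∀ O, IsOpen O → S.set ⊆ O → ∀ᶠ n in (𝒰 : Filter ι), (K n).set ⊆ O := by
  classical
  obtain ⟨m, S, a, h1, -, h3⟩ := h.bb.siub X μ h.hμ w h.hw ι 𝒰 K M hK
  choose m' C k hk hs hT using fun i => h.bb.dec X μ h.hμ w h.hw (S i) (h1 i).2.toPCur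
    (h.bb.lsx X μ h.hμ w h.hw (S i) (h1 i).2)
  obtain ⟨i₀, hi₀⟩ := h3 x hacc
  rw [hs i₀] at hi₀
  obtain ⟨l₀, hl₀⟩ := mem_iUnion.1 hi₀
  obtain ⟨T, hT⟩ := h.tor (C i₀ l₀)
  refine ⟨T, hT ▸ hl₀, fun O hO hLO => ?_⟩
  rw [hT] at hLO
  let R : Set X := ⋃ p : (Σ i, Fin (m' i)),
    if (C p.1 p.2).K = (C i₀ l₀).K then ∅ else (C p.1 p.2).K
  have hR : IsCompact R := isCompact_iUnion fun p => by
    split_ifs
    · exact isCompact_empty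
    · exact (C p.1 p.2).cpt
  have hLR : Disjoint (C i₀ l₀).K R := disjoint_iUnion_right.2 fun p => by
    split_ifs with e
    · exact disjoint_empty _
    · exact h.disj (Ne.symm e)
  obtain ⟨O₁, O₂, o1, o2, o3, o4, o5⟩ :=
    SeparatedNhds.of_isCompact_isCompact (C i₀ l₀).cpt hR hLR
  have hsub : ∀ᶠ n in (𝒰 : Filter ι), (K n).set ⊆ (O₁ ∩ O) ∪ O₂ := by
    by_contra hno
    rw [← Ultrafilter.eventually_not] at hno
    have hex : ∀ n, ∃ y, ¬ (K n).set ⊆ (O₁ ∩ O) ∪ O₂ → y ∈ (K n).set ∧ y ∉ (O₁ ∩ O) ∪ O₂ := by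
      intro n
      by_cases h : (K n).set ⊆ (O₁ ∩ O) ∪ O₂
      · exact ⟨x, fun h' => (h' h).elim⟩
      · obtain ⟨y, hy⟩ := not_subset.1 h
        exact ⟨y, fun _ => hy⟩
    choose y hy using hex
    have hcl : IsCompact ((O₁ ∩ O) ∪ O₂)ᶜ := ((o1.inter hO).union o2).isClosed_compl.isCompact
    obtain ⟨x', hx', hle⟩ := hcl.ultrafilter_le_nhds (𝒰.map y) (by
      rw [Ultrafilter.coe_map, le_principal_iff, mem_map]
      filter_upwards [hno] with n hn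
      exact (hy n hn).2)
    obtain ⟨i, hi⟩ := h3 x' fun U hU => by
      have k1 : ∀ᶠ n in (𝒰 : Filter ι), y n ∈ U := hle hU
      filter_upwards [hno, k1] with n hn hn'
      exact ⟨y n, hn', (hy n hn).1⟩
    rw [hs i] at hi
    obtain ⟨l, hl⟩ := mem_iUnion.1 hi
    by_cases e : (C i l).K = (C i₀ l₀).K
    · exact hx' (Or.inl ⟨o3 (e ▸ hl), hLO (e ▸ hl)⟩)
    · refine hx' (Or.inr (o4 (mem_iUnion.2 ⟨⟨i, l⟩, ?_⟩)))
      rwa [if_neg e]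
  filter_upwards [hsub, hacc (O₁ ∩ O) ((o1.inter hO).mem_nhds ⟨o3 hl₀, hLO hl₀⟩)] with n k1 k2
  refine ((Tor.conn (K n)).subset_left_of_subset_union (o1.inter hO) o2
    (o5.mono_left inter_subset_left) k1 ?_).trans inter_subset_right
  rwa [inter_comm]

theorem Hy.fol (S : Tor (Jw w)) : ∃ F : Fol (Jw w), S.set = F.leaf 0 := by
  obtain ⟨F, -, h0⟩ : ∃ F : Fol (Jw w), F.img ⊆ univ ∧
      ∀ p : P2, F.Ψ (0, p) = S.u (p.1 + p.2 * S.τ) :=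
    h.bb.fol X (pairW h.hw) S _ isOpen_univ (subset_univ _)
  exact ⟨F, leaf_eq fun p => (h0 p).symm⟩

end FaH

open FaH in
theorem fola : FOLA_statement := by
  intro bb X _ μ hμ w hw E hE hK ⟨K₀⟩
  have h : Hy μ w E := ⟨bb, hμ, hw, hE, hK⟩
  obtain ⟨T₀, -⟩ := h.tor K₀
  let 𝓛 : Set X → Prop := fun L => ∃ T : Tor (Jw w), T.set = L ∧ T.int (w 2) = T₀.int (w 2)
  have hfol : ∀ L, 𝓛 L → ∃ F : Fol (Jw w), F.leaf 0 = L ∧
      ∀ y ∈ ball (0 : P2) F.ε, 𝓛 (F.leaf y) := by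
    rintro _ ⟨T, rfl, e⟩
    obtain ⟨F, hF⟩ := h.fol T
    refine ⟨F, hF.symm, fun y hy => ?_⟩
    obtain ⟨T', k1, k2⟩ := h.fam F (mem_ball_self F.ε_pos) hy hF
    exact ⟨T', k1, k2.trans e⟩
  refine ⟨𝓛, fun x => ?_, ?_, hfol⟩
  swap
  · rintro _ _ ⟨T, rfl, -⟩ ⟨T', rfl, -⟩ hn
    exact h.eq hn
  have key : IsClopen {x | ∃ L, 𝓛 L ∧ x ∈ L} := by
    refine ⟨isClosed_of_closure_subset fun x hx => ?_, isOpen_iff_mem_nhds.2 ?_⟩
    · let ι := {T : Tor (Jw w) // T.int (w 2) = T₀.int (w 2)} × X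
      let p : ι → X := Prod.snd
      have hne : (comap p (𝓝 x) ⊓ 𝓟 {a : ι | a.2 ∈ a.1.1.set}).NeBot := by
        rw [inf_principal_neBot_iff]
        rintro U ⟨t, ht, hU⟩
        obtain ⟨y', k1, _, ⟨T, rfl, k2⟩, k3⟩ := mem_closure_iff_nhds.1 hx t ht
        exact ⟨(⟨T, k2⟩, y'), hU k1, k3⟩
      let 𝒰 := Ultrafilter.of (comap p (𝓝 x) ⊓ 𝓟 {a : ι | a.2 ∈ a.1.1.set})
      have hle := Ultrafilter.of_le (comap p (𝓝 x) ⊓ 𝓟 {a : ι | a.2 ∈ a.1.1.set})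
      obtain ⟨S, s1, s2⟩ := h.lim ι 𝒰 (fun a => a.1.1) _ (fun a => a.1.2.le) x fun U hU => by
        have u1 : ∀ᶠ a in (𝒰 : Filter ι), a.2 ∈ U :=
          (hle.trans inf_le_left) (preimage_mem_comap (m := p) hU)
        have u2 : ∀ᶠ a in (𝒰 : Filter ι), a.2 ∈ a.1.1.set :=
          (hle.trans inf_le_right) (mem_principal_self _)
        filter_upwards [u1, u2] with a a1 a2
        exact ⟨_, a1, a2⟩
      obtain ⟨F, hF⟩ := h.fol S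
      obtain ⟨a, ha⟩ := (s2 F.img ((bb.folb X _ F).1 _ isOpen_ball Subset.rfl)
        (hF ▸ F.leaf_sub (mem_ball_self F.ε_pos))).exists
      obtain ⟨y, hy, e⟩ := F.maxp _ ha
      obtain ⟨T', k1, k2⟩ := h.fam F hy (mem_ball_self F.ε_pos) e
      exact ⟨_, ⟨T', rfl, k2.trans a.1.2⟩, k1 ▸ hF ▸ s1⟩
    · rintro y ⟨L, h1, h2⟩
      obtain ⟨F, rfl, h3⟩ := hfol L h1
      refine mem_of_superset (((bb.folb _ _ F).1 _ isOpen_ball Subset.rfl).mem_nhds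
        (F.leaf_sub (mem_ball_self F.ε_pos) h2)) fun z hz => ?_
      obtain ⟨t, k1, k2⟩ := F.mem_img.1 hz
      exact ⟨_, h3 t k1, k2⟩
  exact (key.eq_univ ⟨_, _, ⟨T₀, rfl, rfl⟩, 0, rfl⟩).ge (mem_univ x)

end Vale.Agent.P247D
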