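import Vale.Agent.P247D.Sta
import Vale.Agent.P247Y.Ratx
import Vale.Agent.P247C.T5
import Vale.Agent.P247M.LBOps

/-!
# P247, block FOL: row RATZ
-/

set_option linter.all false

open scoped Manifold ContDiff Topology
open Set Filter Metric Function

noncomputable section

namespace Vale.Agent.P247D

open Vale.Agent.P247.SCY hiding dm
open Vale.Agent.P247.SCY.HS
open Vale.Agent.P247X
open Vale.Agent.P247Y
open Vale.Agent.P247M
open Vale.Agent.P267.H175 (SmAt dF)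

namespace RzH

variable {X : Type} [Cl4 X]

/-- local potentials -/
def Pot (b : RF X 1) (f : X → ℝ) (x : X) : Prop := ∀ᶠ y in 𝓝 x, SmF f y ∧ d0 f y = b y

theorem ball_ex (p : X) {W : Set X} (hW : W ∈ 𝓝 p) : ∃ B : Set X, IsOpen B ∧ p ∈ B ∧ B ⊆ W ∧
    B ⊆ (chartAt E4 p).source ∧ Convex ℝ (chartAt E4 p '' B) := by
  set e := chartAt E4 p with he
  have hp : p ∈ e.source := mem_chart_source E4 p
  have h1 : e.target ∩ e.symm ⁻¹' W ∈ 𝓝 (e p) :=
    inter_mem (e.open_target.mem_nhds (e.map_source hp)) (tendsto_symm hp hW)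
  obtain ⟨r, hr, hb⟩ := Metric.mem_nhds_iff.1 h1
  have him : e '' (e.source ∩ e ⁻¹' ball (e p) r) = ball (e p) r := by
    refine Subset.antisymm ?_ fun z hz => ?_
    · rintro _ ⟨y, hy, rfl⟩
      exact hy.2
    · refine ⟨e.symm z, ⟨e.map_target (hb hz).1, ?_⟩, e.right_inv (hb hz).1⟩
      show e (e.symm z) ∈ ball (e p) r
      rwa [e.right_inv (hb hz).1]
  refine ⟨_, e.isOpen_inter_preimage isOpen_ball, ⟨hp, mem_ball_self hr⟩, fun y hy => ?_,
    inter_subset_left, him.symm ▸ convex_ball _ _⟩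
  have h2 : e.symm (e y) ∈ W := (hb hy.2).2
  rwa [e.left_inv hy.1] at h2

theorem lc_of {b : RF X 1} {f g : X → ℝ} {x : X} (hf : Pot b f x) (hg : Pot b g x) :
    ∀ᶠ y in 𝓝 x, f y - g y = f x - g x := by
  obtain ⟨B, h1, h2, h3, h4, h5⟩ := ball_ex x (hf.and hg)
  obtain ⟨r, hr⟩ := exists_const (chart_mem_atlas E4 x) h1 h4 h5 (f := fun y => f y - g y)
    (fun y hy => (h3 hy).1.1.sub (h3 hy).2.1) fun y hy => by
      rw [d0, Df_sub (h3 hy).1.1 (h3 hy).2.1, map_sub]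
      exact sub_eq_zero.2 ((h3 hy).1.2.trans (h3 hy).2.2.symm)
  filter_upwards [h1.mem_nhds h2] with y hy
  exact (hr y hy).trans (hr x h2).symm

theorem pot_ex {a : Form X 1} (ha : SC a) (x : X) : ∃ f, Pot (rf a) f x := by
  obtain ⟨B, h1, h2, -, h4, h5⟩ := ball_ex x univ_mem
  obtain ⟨f, k1, k2⟩ := exists_prim1 (chart_mem_atlas E4 x) h1 h4 h5
    (fun y _ => (sc_iff.1 ha).1 y) fun y _ => (sc_iff.1 ha).2 y
  exact ⟨f, eventually_of_mem (h1.mem_nhds h2) fun y hy => ⟨k1 y hy, k2 y hy⟩⟩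

theorem Pot.comb {a a' : RF X 1} {f f' : X → ℝ} {x : X} (h : Pot a f x) (h' : Pot a' f' x)
    (s t k : ℝ) : Pot (s • a + t • a') (fun y => s * f y + t * f' y - k) x := by
  filter_upwards [h, h'] with y h1 h2
  have h3 : SmF (fun y => s * f y) y := contMDiffAt_const.mul h1.1
  have h4 : SmF (fun y => t * f' y) y := contMDiffAt_const.mul h2.1
  have h5 : SmF (fun y => s * f y + t * f' y) y := h3.add h4
  refine ⟨h5.sub contMDiffAt_const, ?_⟩
  rw [d0, Df_sub h5 contMDiffAt_const, Df_add h3 h4, Df_const, Df_const_mul _ h1.1,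
    Df_const_mul _ h2.1, sub_zero, map_add, map_smul, map_smul]
  exact congrArg₂ (· + ·) (congrArg (s • ·) h1.2) (congrArg (t • ·) h2.2)

theorem ratp {L : Set X} (hL : Rat L) {a a' : Form X 1} (ha : SC a) (ha' : SC a') :
    ∃ s t : ℝ, (s ≠ 0 ∨ t ≠ 0) ∧ ∃ H : X → ℝ, ContMDiff (𝓡 4) 𝓘(ℝ, ℝ) ∞ H ∧ ∀ x ∈ L, ∃ ψ,
      Pot (s • rf a + t • rf a') ψ x ∧ ∀ᶠ y in 𝓝 x, y ∈ L → H y = ψ y := by
  obtain ⟨n, hn, rfl, p, q, hpq⟩ := hL
  choose f hf using pot_ex ha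
  choose f' hf' using pot_ex ha'
  let V : X → Set X := fun i => {y | Pot (rf a) (f i) y ∧ Pot (rf a') (f' i) y}
  have hV : ∀ i, IsOpen (V i) := fun i => isOpen_setOf_eventually_nhds.inter
    isOpen_setOf_eventually_nhds
  have hi : ∀ i, i ∈ V i := fun i => ⟨hf i, hf' i⟩
  let c : Coc (univ : Set X) (ℝ × ℝ) :=
    { ι := X, V := V, opn := hV, sub := fun _ => subset_univ _, cov := fun x _ => ⟨x, hi x⟩
      c := fun i j y => (f i y - f j y, f' i y - f' j y)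
      lc := fun i j x hx => by
        filter_upwards [lc_of hx.1.1 hx.2.1, lc_of hx.1.2 hx.2.2] with y h1 h2
        rw [h1, h2]
      co := fun i j k x _ => by simp }
  obtain ⟨N, hN, hπ⟩ : ∃ N : OnePoint ℂ → c.Tot, Continuous N ∧ ∀ s, (N s).x = n s :=
    c.gcov.lift_sphere hn fun _ => mem_univ _
  let h : OnePoint ℂ → ℝ × ℝ := fun s => (f (n s) (n s), f' (n s) (n s)) - (N s).co (n s)
  have h1 : ∀ s, ∀ᶠ s' in 𝓝 s, h s' = (f (n s) (n s'), f' (n s) (n s')) - (N s).co (n s) := by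
    intro s
    filter_upwards [hN.continuousAt.eventually (Coc.co_near (z := N s) (i := n s) (hπ s ▸ hi _)),
      hn.continuousAt.eventually ((hV _).mem_nhds (hi (n s)))] with s' k1 k2
    have k3 := Coc.Tot.co_co (z := N s') (i := n s) (j := n s') (hπ s' ▸ k2) (hπ s' ▸ hi _)
    rw [← k1, k3, hπ]
    refine Prod.ext ?_ ?_ <;> simp [h, c] <;> ring
  obtain ⟨s, t, hst, h2⟩ : ∃ s t : ℝ, (s ≠ 0 ∨ t ≠ 0) ∧
      s * (h p).1 + t * (h p).2 = s * (h q).1 + t * (h q).2 := by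
    by_cases e : (h p).1 = (h q).1
    · exact ⟨1, 0, Or.inl one_ne_zero, by simp [e]⟩
    · exact ⟨(h q).2 - (h p).2, (h p).1 - (h q).1, Or.inr (sub_ne_zero.2 e), by ring⟩
  have h3 : ∀ σ σ', n σ = n σ' → s * (h σ).1 + t * (h σ).2 = s * (h σ').1 + t * (h σ').2 := by
    intro σ σ' e
    rcases hpq σ σ' e with rfl | ⟨rfl, rfl⟩ | ⟨rfl, rfl⟩
    exacts [rfl, h2, h2.symm]
  have h4 : ∀ σ, ∃ ψ, Pot (s • rf a + t • rf a') ψ (n σ) ∧
      ∀ᶠ y in 𝓝 (n σ), ∀ σ' ∈ n ⁻¹' {y}, ψ y = s * (h σ').1 + t * (h σ').2 := by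
    intro σ
    refine ⟨_, (hf (n σ)).comb (hf' (n σ)) s t
      (s * ((N σ).co (n σ)).1 + t * ((N σ).co (n σ)).2), ?_⟩
    have k := hn.isClosedMap.eventually_nhds_fiber (n σ) (p := fun σ' =>
      s * f (n σ) (n σ') + t * f' (n σ) (n σ') - (s * ((N σ).co (n σ)).1 +
        t * ((N σ).co (n σ)).2) = s * (h σ').1 + t * (h σ').2) fun σ₀ e => by
      have e' : n σ₀ = n σ := e
      have k2 := h3 _ _ e'
      filter_upwards [h1 σ₀] with σ' k1
      rw [k1]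
      simp only [h, e', Prod.fst_sub, Prod.snd_sub] at k2 ⊢
      linarith
    filter_upwards [k] with y k1 σ' e
    rw [← k1 σ' e, show n σ' = y from e]
  obtain ⟨H, hH⟩ := exists_contMDiffMap_forall_mem_convex_of_local (𝓡 4) (n := ⊤)
    (t := fun y => ⋂ σ ∈ n ⁻¹' {y}, {s * (h σ).1 + t * (h σ).2})
    (fun y => convex_iInter₂ fun _ _ => convex_singleton _) fun x => by
      by_cases hx : x ∈ range n
      · obtain ⟨σ, rfl⟩ := hx
        obtain ⟨ψ, k1, k2⟩ := h4 σ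
        exact ⟨_, k1.and k2, ψ, fun y hy => hy.1.1.contMDiffWithinAt,
          fun y hy => mem_iInter₂.2 hy.2⟩
      · exact ⟨_, (isCompact_range hn).isClosed.isOpen_compl.mem_nhds hx, fun _ => 0,
          contMDiffOn_const, fun y hy => mem_iInter₂.2 fun σ e => (hy ⟨σ, e⟩).elim⟩
  refine ⟨s, t, hst, H, H.contMDiff, ?_⟩
  rintro _ ⟨σ, rfl⟩
  obtain ⟨ψ, k1, k2⟩ := h4 σ
  refine ⟨ψ, k1, k2.mono ?_⟩
  rintro _ k3 ⟨σ', rfl⟩
  exact (mem_iInter₂.1 (hH (n σ')) σ' rfl).trans (k3 σ' rfl).symm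

theorem vanish {J : EndF X} (K : Irr J) {b : RF X 1} {H : X → ℝ}
    (hH : ContMDiff (𝓡 4) 𝓘(ℝ, ℝ) ∞ H)
    (h : ∀ x ∈ K.K, ∃ ψ, Pot b ψ x ∧ ∀ᶠ y in 𝓝 x, y ∈ K.K → H y = ψ y) {e : Form X 1}
    (he : SC e) {c : Form X 2} (hc : Cont c) (hw : IsW (hs b) e c) : K.T c = 0 := by
  have h1 : ∀ x, SmAt (fun y => H y • rf e y) x := fun x => smAt_fsmul (hH x) ((sc_iff.1 he).1 x)
  have h2 : HS.Smooth (hs (dF fun y => H y • rf e y)) := smooth_iff.2 (smAt_dF' h1)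
  rw [← (P247C.irr_cyc K).pcur.closed _ h2 (exact_iff.2 ⟨_, h1, rfl⟩)]
  refine (P247C.irr_cyc K).congr hc (cont_of_smooth h2) fun x N u U hb l z hz _ => ?_
  have hz2 : ball (0 : ℂ) 2 ∈ 𝓝 z := isOpen_ball.mem_nhds (ball_subset_ball one_le_two hz)
  have hu := ((hb.smooth l).contMDiffAt hz2).mdifferentiableAt (by simp)
  obtain ⟨ψ, k1, k2⟩ := h _ (hb.mem l z (mem_of_mem_nhds hz2))
  have k3 : H ∘ u l =ᶠ[𝓝 z] ψ ∘ u l := by
    filter_upwards [hu.continuousAt.eventually k2, hz2] with z' m1 m2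
    exact m1 (hb.mem l z' m2)
  have k4 : ∀ v, Df H (u l z) (dm (u l) z v) = b (u l z) ![dm (u l) z v] := fun v => by
    have m1 := k3.mfderiv_eq (I := 𝓘(ℝ, ℂ)) (I' := 𝓘(ℝ, ℝ))
    rw [mfderiv_comp z ((hH _).mdifferentiableAt (by simp)) hu,
      mfderiv_comp z (k1.self_of_nhds.1.mdifferentiableAt (by simp)) hu] at m1
    rw [← k1.self_of_nhds.2]
    exact (mfderiv_eq_Df (hH _) _).symm.trans
      ((DFunLike.congr_fun m1 v).trans (mfderiv_eq_Df k1.self_of_nhds.1 _))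
  have k5 : dF (fun y => H y • rf e y) (u l z) = wd (Df H (u l z)) (rf e (u l z)) := by
    rw [dF_fsmul (hH _) ((sc_iff.1 he).1 _), (sc_iff.1 he).2, smul_zero, add_zero]
  refine (hw _ _ _).trans (Eq.symm ?_)
  refine (congrArg (fun β : Alt 2 => β ![dm (u l) z 1, dm (u l) z Complex.I]) k5).trans ?_
  refine (wd_one' _ _ _ _).trans ?_
  rw [k4, k4]
  rfl

end RzH

open RzH in
theorem ratz : RATZ_statement := by
  intro X _ J K hK a a' c ha ha' hc hw
  obtain ⟨s, t, hst, H, h1, h2⟩ := ratp hK ha ha'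
  rcases hst with h | h
  · have k := vanish K h1 h2 ha' (hc.smul s).cont fun x u v => by
      change s * c x ![u, v] = (s * a x ![u] + t * a' x ![u]) * a' x ![v] -
        (s * a x ![v] + t * a' x ![v]) * a' x ![u]
      rw [hw]
      ring
    rw [K.lin.smul _ _ hc.cont] at k
    exact (mul_eq_zero.1 k).resolve_left h
  · have k := vanish K h1 h2 ha (hc.smul (-t)).cont fun x u v => by
      change -t * c x ![u, v] = (s * a x ![u] + t * a' x ![u]) * a x ![v] -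
        (s * a x ![v] + t * a' x ![v]) * a x ![u]
      rw [hw]
      ring
    rw [K.lin.smul _ _ hc.cont] at k
    exact (mul_eq_zero.1 k).resolve_left (neg_ne_zero.2 h)

end Vale.Agent.P247D
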