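import Vale.Agent.P247D.Act

/-!
# P247, block FOL: representatives with constant coefficients on the leaves
-/

set_option linter.all false

open scoped Manifold ContDiff Topology
open Set MeasureTheory Filter Metric Function

noncomputable section

namespace Vale.Agent.P247D

open Vale.Agent.P247.SCY hiding dm
open Vale.Agent.P247.SCY.HS
open Vale.Agent.P247X
open Vale.Agent.P247Y
open Vale.Agent.P247.H74 (P2)
open Vale.Agent.P247M (dP Df)

namespace Per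

variable {Z : Type} [TopologicalSpace Z] [ChartedSpace HS.E4 Z] [IsManifold (𝓡 4) ∞ Z]
  {J : EndF Z} {𝓛 : Set Z → Prop}

theorem tor_dP (T : Tor J) (z : ℂ) (m n : ℤ) : dP T.u (z + m + n * T.τ) = dP T.u z := by
  have h1 := ((Tor.mdiff T (z + m + n * T.τ)).hasMFDerivAt.comp z
    (((hasFDerivAt_id z).add_const (m : ℂ)).add_const (n * T.τ)).hasMFDerivAt).mfderiv
  have h2 : (T.u ∘ fun x => id x + m + n * T.τ) = T.u := funext fun x => T.per m n x
  rw [h2] at h1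
  exact h1.symm

/-- two parametrisations of a torus differ by an affine map -/
theorem taff [T2Space Z] (hJ : ∀ x u, J x (J x u) = -u) {T T' : Tor J} (h : T.set ⊆ T'.set) :
    ∃ c : ℂ, ∀ z z', T.u z = T'.u z' → ∀ ζ, dP T.u z ζ = dP T'.u z' (c * ζ) := by
  have hi : ∀ z, Injective (dP T'.u z) := Tor.dm_inj T' hJ
  have h1 : ∀ z, ∃ φ : ℂ → ℂ, ∀ᶠ w in 𝓝 z, DifferentiableAt ℂ φ w ∧ T'.u (φ w) = T.u w ∧
      ∀ ζ, dP T.u w ζ = dP T'.u (φ w) (deriv φ w * ζ) := fun z => by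
    obtain ⟨z', e⟩ := h ⟨z, rfl⟩
    obtain ⟨r, U, k1, k2, k3, k4⟩ := exists_retr isOpen_univ T'.smooth.contMDiffOn (mem_univ z')
      (hi z')
    have k5 := FolH.tor_near T' z' k4
    rw [e] at k2 k5
    have hc := T.smooth.continuous.continuousAt (x := z)
    have k6 : ∀ᶠ w in 𝓝 z, T'.u (r (T.u w)) = T.u w := by
      filter_upwards [hc.eventually k5] with w hw
      obtain ⟨y, a1, a2⟩ := hw (h ⟨w, rfl⟩)
      rw [← a2, show r (T'.u y) = y from a1]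
    refine ⟨r ∘ T.u, ?_⟩
    filter_upwards [hc.preimage_mem_nhds (k1.mem_nhds k2), k6.eventually_nhds] with w a1 a2
    have a3 : DifferentiableAt ℝ (r ∘ T.u) w := (contMDiffAt_iff_contDiffAt.1
      ((k3.contMDiffAt (k1.mem_nhds a1)).comp w (T.smooth w))).differentiableAt (by simp)
    have a4 : dP T.u w = (dP T'.u (r (T.u w))).comp (fderiv ℝ (r ∘ T.u) w) :=
      (((Tor.mdiff T' _).hasMFDerivAt.comp w a3.hasFDerivAt.hasMFDerivAt).congr_of_eventuallyEq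
        (f₁ := T.u) (a2.mono fun _ k => k.symm)).mfderiv
    have a5 : fderiv ℝ (r ∘ T.u) w Complex.I = Complex.I • fderiv ℝ (r ∘ T.u) w 1 := by
      refine hi (r (T.u w)) ?_
      have b1 : dP T.u w Complex.I = (J (T.u w) : HS.E4 →L[ℝ] HS.E4) (dP T.u w 1) := T.hol w
      have b2 : (J (T.u w) : HS.E4 →L[ℝ] HS.E4) = (J (T'.u (r (T.u w))) : HS.E4 →L[ℝ] HS.E4) := by
        rw [a2.self_of_nhds]
      rw [a4, b2] at b1
      exact b1.trans (hol_mul (V := HS.E4) (A := dP T'.u (r (T.u w))) (hJ _) (T'.hol _) _).symm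
    have a6 := differentiableAt_complex_iff_differentiableAt_real.2 ⟨a3, a5⟩
    refine ⟨a6, a2.self_of_nhds, fun ζ => ?_⟩
    rw [a4, (a6.hasDerivAt.hasFDerivAt.restrictScalars ℝ).fderiv]
    simp [mul_comm]
  choose φ hφ using h1
  have h2 : ∀ z z', T.u z = T'.u z' → ∀ ζ, dP T.u z ζ = dP T'.u z' (deriv (φ z) z * ζ) :=
    fun z z' e ζ => by
      obtain ⟨-, a1, a2⟩ := (hφ z).self_of_nhds
      obtain ⟨m, n, rfl⟩ := T'.inj _ _ (a1.trans e)
      rw [tor_dP, a2]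
  have h3 : Differentiable ℂ fun z => deriv (φ z) z := fun z => by
    have a1 : AnalyticAt ℂ (φ z) z :=
      Complex.analyticAt_iff_eventually_differentiableAt.2 ((hφ z).mono fun _ k => k.1)
    refine a1.deriv.differentiableAt.congr_of_eventuallyEq ((hφ z).mono fun w k => ?_)
    simpa using hi _ ((h2 w _ k.2.1.symm 1).symm.trans (k.2.2 1))
  have h4 : ∀ z (m n : ℤ), deriv (φ (z + m + n * T.τ)) (z + m + n * T.τ) = deriv (φ z) z :=
    fun z m n => by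
      obtain ⟨z', e⟩ := h ⟨z, rfl⟩
      have a1 := h2 (z + m + n * T.τ) z' ((T.per m n z).trans e.symm) 1
      rw [tor_dP, h2 z z' e.symm] at a1
      simpa using (hi _ a1).symm
  have h5 := (cpt_per (g := fun p => deriv (φ (cz T.τ p)) (cz T.τ p))
    (h3.continuous.comp (cz_cont _)) 1 one_pos fun p m n => by rw [cz_add, h4]).isBounded
  refine ⟨deriv (φ 0) 0, fun z z' e ζ => ?_⟩
  rw [h2 z z' e, h3.apply_eq_apply_of_bounded (h5.subset ?_) z 0]
  rintro _ ⟨w, rfl⟩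
  obtain ⟨p, rfl⟩ := cz_surj T.τ_pos w
  exact ⟨p, rfl⟩

theorem dfr_comp {G : Z → ℝ} (T : Tor J) {z : ℂ} (hG : ContMDiffAt (𝓡 4) 𝓘(ℝ, ℝ) ∞ G (T.u z)) :
    HasFDerivAt (G ∘ T.u) ((Df G (T.u z)).comp (dP T.u z)) z := by
  have h1 := ((hG.mdifferentiableAt (by simp)).hasMFDerivAt.comp z
    (Tor.mdiff T z).hasMFDerivAt).hasFDerivAt
  exact h1.congr_fderiv (ContinuousLinearMap.ext fun ζ => P247M.mfderiv_eq_Df hG _)

/-- partial solutions -/
structure Sol (𝓛 : Set Z → Prop) (J : EndF Z) (a : Form Z 1) (ρ H : Z → ℝ) : Prop where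
  sm : ContMDiff (𝓡 4) 𝓘(ℝ, ℝ) ∞ ρ
  sm' : ContMDiff (𝓡 4) 𝓘(ℝ, ℝ) ∞ H
  nn : ∀ x, 0 ≤ ρ x
  eq : ∀ T : Tor J, 𝓛 T.set → ∃ (r : ℝ) (L : ℂ →L[ℝ] ℝ), ∀ z, ρ (T.u z) = r ∧
    HasFDerivAt (H ∘ T.u) (r • P247S.b1 (P247M.pb T.u a z) - L) z

theorem sm_ind [T2Space Z] (F : Fol J) {β : P2 → ℝ} (h1 : tsupport β ⊆ ball 0 F.ε)
    (h2 : HasCompactSupport β) {k : Z → ℝ} (hk : ∀ x ∈ F.img, ContMDiffAt (𝓡 4) 𝓘(ℝ, ℝ) ∞ k x)
    (h0 : ∀ q ∈ Dom F.ε, β q.1 = 0 → k (F.Ψ q) = 0) :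
    ContMDiff (𝓡 4) 𝓘(ℝ, ℝ) ∞ (F.img.indicator k) := fun x => by
  by_cases hx : x ∈ F.img
  · exact (hk x hx).congr_of_eventuallyEq (mem_of_superset ((img_open F).mem_nhds hx)
      fun y hy => indicator_of_mem hy k)
  · have hs : tsupport β ×ˢ closedBall (0 : P2) (1 / 2) ⊆ Dom F.ε := fun q hq => mem_dom.2 (h1 hq.1)
    have hK := ((h2.isCompact.prod (isCompact_closedBall (0 : P2) (1 / 2))).image_of_continuousOn
      (F.smooth.continuousOn.mono hs)).isClosed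
    refine P247M.smF_of_const (c := 0) (mem_of_superset (hK.isOpen_compl.mem_nhds
      fun h => hx (image_mono hs h)) fun y hy => ?_)
    refine indicator_apply_eq_zero.2 ?_
    rintro ⟨q, hq, rfl⟩
    refine h0 q hq (image_eq_zero_of_notMem_tsupport fun h => hy ?_)
    exact ⟨(q.1, _), mk_mem_prod h (FolH.round_mem q.2), F.per q.1 q.2 _ _⟩

theorem sol_loc [T2Space Z] (hJ : ∀ x u, J x (J x u) = -u) (hF : Foli J 𝓛) {a : Form Z 1}
    (ha : SC a) (x : Z) : ∃ ρ H, Sol 𝓛 J a ρ H ∧ 0 < ρ x := by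
  obtain ⟨L, hL, p0, hx⟩ : ∃ F : Fol J, (∀ y ∈ ball (0 : P2) F.ε, 𝓛 (F.leaf y)) ∧ x ∈ F.leaf 0 := by
    obtain ⟨L, hL, hx⟩ := hF.cov x
    obtain ⟨F, rfl, k⟩ := hF.fol L hL
    exact ⟨F, k, hx⟩
  rename' L => F
  obtain ⟨β, h1, h2, h3, h4, h5⟩ := exists_contDiff_tsupport_subset (n := ⊤)
    (ball_mem_nhds (0 : P2) F.ε_pos)
  obtain ⟨c, G, h6, h7⟩ := per1 F ha
  obtain ⟨B, hB⟩ := desc0 F (g := fun q => β q.1) fun q _ m n => by simp
  have hBs := sm_of F (h3.comp contDiff_fst).contDiffOn hB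
  refine ⟨F.img.indicator B, F.img.indicator fun x => B x * G x, ⟨sm_ind F h1 h2 hBs
    fun q hq k => by rw [hB q hq, k], sm_ind F h1 h2 (fun x hx => (hBs x hx).mul (h6 x hx))
    fun q hq k => by rw [hB q hq, k, zero_mul], fun x => indicator_apply_nonneg ?_,
    fun T hT => ?_⟩, ?_⟩
  · rintro ⟨q, hq, rfl⟩
    rw [hB q hq]
    exact (h4 ⟨_, rfl⟩).1
  · by_cases k : (T.set ∩ F.img).Nonempty
    · obtain ⟨x, k1, q, hq, rfl⟩ := k
      have k2 : T.set = F.leaf q.1 := hF.uniq _ _ hT (hL _ hq.1) ⟨_, k1, q.2, rfl⟩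
      have k3 : (FolH.leafTor F hq.1).set = F.leaf q.1 :=
        leaf_eq fun p => congrArg (fun r => F.Ψ (q.1, r)) (FolH.co_un (F.τ_pos _ hq.1) p)
      obtain ⟨l, hl⟩ := taff hJ (k2.trans k3.symm).subset
      have k4 : ∀ z, ∃ z', T.u z = F.Ψ (q.1, FolH.co (F.τ q.1) z') := fun z =>
        ((k2.trans k3.symm).subset ⟨z, rfl⟩).imp fun _ e => e.symm
      have k5 : ∀ z, T.u z ∈ F.img ∧ B (T.u z) = β q.1 := fun z => by
        obtain ⟨z', e⟩ := k4 z
        have hq' : ((q.1, FolH.co (F.τ q.1) z') : W) ∈ Dom F.ε := mem_dom.2 hq.1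
        exact ⟨⟨_, hq', e.symm⟩, by rw [e, hB _ hq']⟩
      refine ⟨β q.1, β q.1 • (c.comp (FolH.co (F.τ q.1))).comp (ContinuousLinearMap.mul ℝ ℂ l),
        fun z => ⟨(indicator_of_mem (k5 z).1 _).trans (k5 z).2, ?_⟩⟩
      refine (((dfr_comp T (h6 _ (k5 z).1)).const_mul (β q.1)).congr_of_eventuallyEq
        (.of_forall fun w => ?_)).congr_fderiv (ContinuousLinearMap.ext fun ζ => ?_)
      · exact (indicator_of_mem (k5 w).1 _).trans (congrArg (· * G (T.u w)) (k5 w).2)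
      · obtain ⟨z', e⟩ := k4 z
        have hq' : ((q.1, FolH.co (F.τ q.1) z') : W) ∈ Dom F.ε := mem_dom.2 hq.1
        have a1 : dP T.u z ζ = dP F.Ψ (q.1, FolH.co (F.τ q.1) z') (0, FolH.co (F.τ q.1) (l * ζ)) :=
          (hl z z' e ζ).trans (FolH.slice_der (A := FolH.co (F.τ q.1)) (mdiff F hq') _)
        have a2 := Df_dP F hq' (h6 _ ⟨_, hq', rfl⟩) (0, FolH.co (F.τ q.1) (l * ζ))
        have a3 : p1 F a (q.1, FolH.co (F.τ q.1) z') (0, FolH.co (F.τ q.1) (l * ζ)) =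
            P247S.b1 (P247M.pb T.u a z) ζ := by
          rw [p1, P247S.b1_apply, P247S.b1_apply, P247M.pb, P247M.pb, ← e,
            ContinuousAlternatingMap.compContinuousLinearMap_apply,
            ContinuousAlternatingMap.compContinuousLinearMap_apply]
          congr 1
          funext i
          fin_cases i
          exact a1.symm
        rw [(h7 _ hq').fderiv, ← e, ← a1, ContinuousLinearMap.sub_apply, a3] at a2
        simp only [ContinuousLinearMap.smul_apply, ContinuousLinearMap.comp_apply, a2,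
          ContinuousLinearMap.sub_apply, smul_eq_mul, mul_sub]
        rfl
    · have k1 : ∀ z, T.u z ∉ F.img := fun z h => k ⟨_, ⟨z, rfl⟩, h⟩
      refine ⟨0, 0, fun z => ⟨indicator_of_notMem (k1 z) _, ?_⟩⟩
      rw [zero_smul, sub_zero]
      exact (hasFDerivAt_const 0 z).congr_of_eventuallyEq
        (.of_forall fun w => indicator_of_notMem (k1 w) _)
  · rw [← hx, indicator_of_mem (show F.Ψ (0, p0) ∈ F.img from ⟨_, F.zero_mem p0, rfl⟩),
      hB _ (F.zero_mem p0), h5]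
    exact one_pos

end Per

open Per in
theorem tanf : TANF_statement := by
  intro _ Z _ _ _ _ _ J hJ 𝓛 hF a ha
  obtain ⟨ρ, H, h, hp⟩ : ∃ ρ H, Sol 𝓛 J a ρ H ∧ ∀ x ∈ (univ : Set Z), 0 < ρ x := by
    refine isCompact_univ.induction_on (p := fun s => ∃ ρ H, Sol 𝓛 J a ρ H ∧ ∀ x ∈ s, 0 < ρ x)
      ⟨fun _ => 0, fun _ => 0, ⟨contMDiff_const, contMDiff_const, fun _ => le_rfl, fun T _ =>
        ⟨0, 0, fun z => ⟨rfl, by rw [zero_smul, sub_zero]; exact hasFDerivAt_const 0 z⟩⟩⟩,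
        fun _ h => h.elim⟩
      (fun s t hst ⟨ρ, H, h, k⟩ => ⟨ρ, H, h, fun x hx => k x (hst hx)⟩) ?_ fun x _ => ?_
    · rintro s t ⟨ρ, H, h, k⟩ ⟨ρ', H', h', k'⟩
      refine ⟨ρ + ρ', H + H', ⟨h.sm.add h'.sm, h.sm'.add h'.sm', fun x => add_nonneg (h.nn x)
        (h'.nn x), fun T hT => ?_⟩, fun x hx => hx.elim
        (fun e => add_pos_of_pos_of_nonneg (k x e) (h'.nn x))
        fun e => add_pos_of_nonneg_of_pos (h.nn x) (k' x e)⟩
      obtain ⟨r, L, e⟩ := h.eq T hT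
      obtain ⟨r', L', e'⟩ := h'.eq T hT
      exact ⟨r + r', L + L', fun z => ⟨congrArg₂ (· + ·) (e z).1 (e' z).1,
        ((e z).2.add (e' z).2).congr_fderiv (by module)⟩⟩
    · obtain ⟨ρ, H, h, k⟩ := sol_loc hJ hF ha x
      exact ⟨{y | 0 < ρ y}, mem_nhdsWithin_of_mem_nhds
        ((isOpen_lt continuous_const h.sm.continuous).mem_nhds k), ρ, H, h, fun _ e => e⟩
  have hf : ContMDiff (𝓡 4) 𝓘(ℝ, ℝ) ∞ fun x => H x / ρ x :=
    h.sm'.div₀ h.sm fun x => (hp x trivial).ne'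
  refine ⟨_, hf, fun T hT => ?_⟩
  obtain ⟨r, L, e⟩ := h.eq T hT
  have hr : r ≠ 0 := (e 0).1 ▸ (hp _ trivial).ne'
  refine ⟨r⁻¹ • L, fun z ζ => ?_⟩
  have h1 := congrArg (fun A : ℂ →L[ℝ] ℝ => A ζ) ((dfr_comp T (hf (T.u z))).unique
    (((e z).2.const_mul r⁻¹).congr_of_eventuallyEq (.of_forall fun w => by
      simp only [comp, (e w).1, div_eq_inv_mul])))
  simp only [ContinuousLinearMap.smul_apply, ContinuousLinearMap.comp_apply,
    ContinuousLinearMap.sub_apply, smul_eq_mul, P247S.b1_apply, P247M.pb_one] at h1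
  have h2 : dfr (fun x => H x / ρ x) (T.u z) (dm T.u z ζ) =
      r⁻¹ * (r * a (T.u z) ![dm T.u z ζ] - L ζ) := (P247M.mfderiv_eq_Df (hf _) _).trans h1
  rw [h2, ContinuousLinearMap.smul_apply, smul_eq_mul]
  field_simp
  ring

end Vale.Agent.P247D
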