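import Vale.Agent.P247D.Brg
import Vale.Agent.P247D.Asm
import Vale.Agent.P247D.Fola
import Vale.Agent.P247D.Ratz
import Vale.Agent.P247D.Act
import Vale.Agent.P247D.Tanf

/-!
# P247D: the row `FOL` from the statements of the first stage
-/

namespace Vale.Agent.P247D

theorem act : ACT_statement :=
  fun _ Z _ _ _ _ P 𝓛 h a a' ha ha' hi => act2 Z P 𝓛 h a a' ha ha' hi

theorem fol_bb (h : BB2) : P247A.FOL_statement :=
  fol_of h.emb (asmd h ratz fola tanf act)

end Vale.Agent.P247D
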