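import Vale.Agent.P247D.Per0
import Vale.Agent.P247M.PB

/-!
# P247, block FOL: closed forms in a foliated neighbourhood
-/

set_option linter.all false

open scoped Manifold ContDiff Topology
open Set MeasureTheory Filter Metric Function

noncomputable section

namespace Vale.Agent.P247D.Per

open Vale.Agent.P247.SCY hiding dm
open Vale.Agent.P247.SCY.HS
open Vale.Agent.P247X
open Vale.Agent.P247Y
open Vale.Agent.P247S (Cov Bil Al1 Al2 b1 bl)
open Vale.Agent.P247.H74 (P2)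
open Vale.Agent.P247M (pb dP)

variable {Z : Type} [TopologicalSpace Z] [ChartedSpace HS.E4 Z] {J : EndF Z} (F : Fol J)

theorem ψ_per (q : W) (m n : ℤ) : F.Ψ (q + (0, zv m n)) = F.Ψ q := by
  rw [← F.per q.1 q.2 m n]
  congr 1
  exact Prod.ext (add_zero _) rfl

theorem mdiff {q : W} (hq : q ∈ Dom F.ε) : MDifferentiableAt 𝓘(ℝ, W) (𝓡 4) F.Ψ q :=
  (F.at hq).mdifferentiableAt (by simp)

theorem dP_per {q : W} (hq : q ∈ Dom F.ε) (m n : ℤ) : dP F.Ψ (q + (0, zv m n)) = dP F.Ψ q := by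
  have h1 := ((mdiff F (add_mem hq (zv m n))).hasMFDerivAt.comp q
    ((hasFDerivAt_id q).add_const ((0, zv m n) : W)).hasMFDerivAt).mfderiv
  have h2 : (F.Ψ ∘ fun x => id x + (0, zv m n)) = F.Ψ := funext fun x => ψ_per F x m n
  rw [h2] at h1
  exact h1.symm

theorem pb_per {k : ℕ} (α : Form Z k) {q : W} (hq : q ∈ Dom F.ε) (m n : ℤ) :
    pb F.Ψ α (q + (0, zv m n)) = pb F.Ψ α q := by
  rw [pb, pb, dP_per F hq, ψ_per]

/-- periodic functions descend -/
theorem desc0 {E : Type} {g : W → E} (hp : ∀ q ∈ Dom F.ε, ∀ m n, g (q + (0, zv m n)) = g q) :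
    ∃ G : Z → E, ∀ q ∈ Dom F.ε, G (F.Ψ q) = g q := by
  refine ⟨fun x => g (invFunOn F.Ψ (Dom F.ε) x), fun q hq => ?_⟩
  have h1 := invFunOn_mem (f := F.Ψ) ⟨q, hq, rfl⟩
  obtain ⟨h2, m, n, h3⟩ := F.inj _ h1 q hq (invFunOn_eq ⟨q, hq, rfl⟩)
  exact (hp _ h1 m n).symm.trans (congrArg g (Prod.ext ((add_zero _).trans h2) h3.symm))

variable [IsManifold (𝓡 4) ∞ Z]

theorem sm_of {E : Type} [NormedAddCommGroup E] [NormedSpace ℝ E] {g : W → E} {G : Z → E}
    (hg : ContDiffOn ℝ ∞ g (Dom F.ε)) (h : ∀ q ∈ Dom F.ε, G (F.Ψ q) = g q) :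
    ∀ x ∈ F.img, ContMDiffAt (𝓡 4) 𝓘(ℝ, E) ∞ G x := by
  rintro _ ⟨q, hq, rfl⟩
  obtain ⟨e, h1, h2, h3, h4⟩ := locInv (dom_open _) F.smooth hq (F.bij q hq)
  have h5 : e.target ∈ 𝓝 (F.Ψ q) := e.open_target.mem_nhds (h3 q ▸ e.map_source h1)
  have h6 : e.symm (F.Ψ q) = q := by rw [← h3, e.left_inv h1]
  have h7 : ContMDiffAt 𝓘(ℝ, W) 𝓘(ℝ, E) ∞ g (e.symm (F.Ψ q)) := by
    rw [h6]
    exact (hg.contDiffAt ((dom_open _).mem_nhds hq)).contMDiffAt
  refine (h7.comp _ (h4.contMDiffAt h5)).congr_of_eventuallyEq ?_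
  filter_upwards [h5] with x hx
  rw [comp, ← h _ (h2 (e.map_target hx)), ← h3, e.right_inv hx]

theorem img_open : IsOpen F.img :=
  isOpen_image_bij (dom_open _) F.smooth F.bij (dom_open _) subset_rfl

/-- the pull-back of a one-form -/
def p1 (a : Form Z 1) (q : W) : Cov W := b1 (pb F.Ψ a q)

theorem p1_apply (a : Form Z 1) (q v : W) : p1 F a q v = a (F.Ψ q) ![dmP F.Ψ q v] :=
  (P247S.b1_apply _ _).trans (P247M.pb_one _ _ _ _)

/-- the pull-back of a two-form -/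
def p2 (η : Form Z 2) (q : W) : Bil W := bl (pb F.Ψ η q)

theorem p2_apply (η : Form Z 2) (q u v : W) :
    p2 F η q u v = η (F.Ψ q) ![dmP F.Ψ q u, dmP F.Ψ q v] :=
  (P247S.bl_apply _ _ _).trans (P247M.pb_two _ _ _ _ _)

/-- closed one-forms in a foliated neighbourhood -/
theorem per1 {a : Form Z 1} (ha : SC a) : ∃ (c : P2 →L[ℝ] ℝ) (G : Z → ℝ),
    (∀ x ∈ F.img, ContMDiffAt (𝓡 4) 𝓘(ℝ, ℝ) ∞ G x) ∧ ∀ q ∈ Dom F.ε, HasFDerivAt (G ∘ F.Ψ)
      (p1 F a q - c.comp (ContinuousLinearMap.snd ℝ P2 P2)) q := by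
  have h0 := P247M.contDiffOn_pb (dom_open F.ε) F.smooth ha.1
  have h1 : ContDiffOn ℝ ∞ (p1 F a) (Dom F.ε) := fun q hq =>
    (P247S.cda (E := Al1 W) (F := Cov W) b1
      (h0.contDiffAt ((dom_open _).mem_nhds hq))).contDiffWithinAt
  obtain ⟨c, g, k1, k2⟩ := prim_per (dom_open F.ε) (dom_convex _) ⟨_, F.zero_mem 0⟩
    (h1.differentiableOn (by simp)) (fun q hq u v => by
      have e1 := P247S.extDeriv_a1
        ((h1.contDiffAt ((dom_open _).mem_nhds hq)).differentiableAt (by simp))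
      simp only [p1, P247S.a1_b1] at e1
      have e2 := P247M.extDeriv_pb_sc (dom_open F.ε) F.smooth ha hq
      have e3 := P247S.a2_apply (fderiv ℝ (p1 F a) q) u v
      erw [← e1, e2] at e3
      exact sub_eq_zero.1 e3.symm)
    (ContinuousLinearMap.inr ℝ P2 P2) (ContinuousLinearMap.snd ℝ P2 P2) (fun _ => rfl)
    (fun q hq m n => add_mem hq _) fun q hq m n => congrArg b1 (pb_per F a hq m n)
  obtain ⟨G, hG⟩ := desc0 F k2
  refine ⟨c, G, sm_of F ((contDiffOn_infty_iff_fderiv_of_isOpen (dom_open _)).2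
    ⟨fun q hq => (k1 q hq).differentiableAt.differentiableWithinAt,
      (h1.sub contDiffOn_const).congr fun q hq => (k1 q hq).fderiv⟩) hG, fun q hq => ?_⟩
  exact (k1 q hq).congr_of_eventuallyEq (mem_of_superset ((dom_open _).mem_nhds hq) hG)

theorem lag {η : Form Z 2} (hη : SC η) (h0 : ∀ x u, η x ![u, J x u] = 0) : Lag F.ε (p2 F η) := by
  have h1 := P247M.contDiffOn_pb (dom_open F.ε) F.smooth hη.1
  refine ⟨fun q hq => (P247S.cda (E := Al2 W) (F := Bil W) bl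
      (h1.contDiffAt ((dom_open _).mem_nhds hq))).contDiffWithinAt,
    fun q hq => P247S.closed_bl ((h1.contDiffAt ((dom_open _).mem_nhds hq)).differentiableAt
      (by simp)) (P247M.extDeriv_pb_sc (dom_open F.ε) F.smooth hη hq),
    fun q hq m n => congrArg bl (pb_per F η hq m n), fun q a b => P247S.bl_swap _ _ _,
    fun q hq w w' => ?_⟩
  have h2 : p2 F η q (0, (1, 0)) (0, (0, 1)) = 0 := by
    rw [p2_apply, F.hol q hq]
    erw [alt2_add_right (V := HS.E4), alt2_smul_right (V := HS.E4), alt2_smul_right (V := HS.E4),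
      alt2_self (V := HS.E4), h0]
    simp
  have h3 : ∀ a b, p2 F η q b a = -p2 F η q a b := fun a b => P247S.bl_swap _ _ _
  have h4 : ∀ a, p2 F η q a a = 0 := fun a => by linarith [h3 a a]
  have e : ∀ w : P2, ((0, w) : W) = w.1 • (0, (1, 0)) + w.2 • (0, (0, 1)) := fun w => by simp
  rw [e w, e w']
  simp only [map_add, map_smul, ContinuousLinearMap.add_apply, ContinuousLinearMap.smul_apply,
    h4, h3 (0, (1, 0)) (0, (0, 1)), h2, smul_zero, add_zero, neg_zero]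

end Vale.Agent.P247D.Per
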