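import Vale.Agent.P247Y.Dc
import Vale.Agent.P247S.A0
import Vale.Agent.P267.H734.ParInt

/-!
# P247, block FOL: periods of closed periodic forms
-/

set_option linter.all false

open scoped ContDiff Topology
open Set MeasureTheory Filter Metric Function

noncomputable section

namespace Vale.Agent.P247D.Per

open Vale.Agent.P247Y
open Vale.Agent.P247S (Cov Bil)
open Vale.Agent.P247.H74 (P2)

/-- lattice vectors -/
def zv (m n : ℤ) : P2 := ((m : ℝ), (n : ℝ))

theorem zv10 : zv 1 0 = (1, 0) := by simp [zv]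

theorem zv01 : zv 0 1 = (0, 1) := by simp [zv]

section prim

variable {V : Type} [NormedAddCommGroup V] [NormedSpace ℝ V]

theorem lin_ext {c c' : P2 →L[ℝ] ℝ} (h1 : c (1, 0) = c' (1, 0)) (h2 : c (0, 1) = c' (0, 1)) :
    c = c' := by
  refine ContinuousLinearMap.ext fun p => ?_
  have : p = p.1 • ((1, 0) : P2) + p.2 • ((0, 1) : P2) := by simp
  rw [this, map_add, map_add, map_smul, map_smul, map_smul, map_smul, h1, h2]

/-- closed periodic one-forms are constant up to periodic exact forms -/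
theorem prim_per {D : Set V} (hD : IsOpen D) (hc : Convex ℝ D) (hne : D.Nonempty) {om : V → Cov V}
    (hom : DifferentiableOn ℝ om D) (hs : ∀ q ∈ D, ∀ a b, fderiv ℝ om q a b = fderiv ℝ om q b a)
    (ι : P2 →L[ℝ] V) (pr : V →L[ℝ] P2) (hι : ∀ p, pr (ι p) = p)
    (hm : ∀ q ∈ D, ∀ m n : ℤ, q + ι (zv m n) ∈ D) (hp : ∀ q ∈ D, ∀ m n : ℤ, om (q + ι (zv m n)) = om q) :
    ∃ (c : P2 →L[ℝ] ℝ) (g : V → ℝ), (∀ q ∈ D, HasFDerivAt g (om q - c.comp pr) q) ∧
      ∀ q ∈ D, ∀ m n : ℤ, g (q + ι (zv m n)) = g q := by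
  obtain ⟨G, hG⟩ := hc.exists_forall_hasFDerivAt_of_fderiv_symmetric hD hom hs
  obtain ⟨q0, h0⟩ := hne
  have key : ∀ (m n : ℤ), ∀ q ∈ D, G (q + ι (zv m n)) - G q = G (q0 + ι (zv m n)) - G q0 :=
    fun m n q hq => by
      have h1 : ∀ x ∈ D, HasFDerivAt (fun x => G (x + ι (zv m n)) - G x) (0 : V →L[ℝ] ℝ) x :=
        fun x hx => by
          have := ((hG _ (hm x hx m n)).comp x ((hasFDerivAt_id x).add_const _)).sub (hG x hx)
          rwa [hp x hx, ContinuousLinearMap.comp_id, sub_self] at this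
      exact hD.is_const_of_fderiv_eq_zero hc.isPreconnected
        (fun x hx => (h1 x hx).differentiableAt.differentiableWithinAt)
        (fun x hx => (h1 x hx).fderiv) hq h0
  let κ : ℤ × ℤ →+ ℝ := AddMonoidHom.mk' (fun k => G (q0 + ι (zv k.1 k.2)) - G q0) fun k l => by
    have := key l.1 l.2 _ (hm q0 h0 k.1 k.2)
    have e : q0 + ι (zv (k + l).1 (k + l).2) = q0 + ι (zv k.1 k.2) + ι (zv l.1 l.2) := by
      rw [add_assoc, ← map_add]
      simp [zv]
    rw [e]
    linarith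
  refine ⟨κ (1, 0) • ContinuousLinearMap.fst ℝ ℝ ℝ + κ (0, 1) • ContinuousLinearMap.snd ℝ ℝ ℝ,
    fun q => G q - _, fun q hq => (hG q hq).sub (ContinuousLinearMap.hasFDerivAt _),
    fun q hq m n => ?_⟩
  have h2 : κ (m, n) = m * κ (1, 0) + n * κ (0, 1) := by
    rw [← zsmul_eq_mul, ← zsmul_eq_mul, ← map_zsmul, ← map_zsmul, ← map_add]
    simp
  have h3 : G (q + ι (zv m n)) - G q = κ (m, n) := key m n q hq
  simp only [map_add, ContinuousLinearMap.comp_apply, hι, ContinuousLinearMap.add_apply,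
    ContinuousLinearMap.smul_apply, ContinuousLinearMap.coe_fst', ContinuousLinearMap.coe_snd',
    smul_eq_mul, zv] at h3 ⊢
  linarith

/-- periodic functions with constant differential -/
theorem lin_zero {g : P2 → ℝ} {c : P2 →L[ℝ] ℝ} (h : ∀ p, HasFDerivAt g c p)
    (hp : ∀ (p : P2) (m n : ℤ), g (p + zv m n) = g p) : c = 0 := by
  have h1 : ∀ p, HasFDerivAt (fun p => g p - c p) (0 : P2 →L[ℝ] ℝ) p := fun p =>
    ((h p).sub c.hasFDerivAt).congr_fderiv (sub_self c)
  have h2 := is_const_of_fderiv_eq_zero (fun p => (h1 p).differentiableAt) fun p => (h1 p).fderiv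
  have h3 := h2 0 (0 + zv 1 0)
  have h4 := h2 0 (0 + zv 0 1)
  rw [hp, zero_add, map_zero] at h3 h4
  rw [zv10] at h3
  rw [zv01] at h4
  exact lin_ext (sub_right_injective h3).symm (sub_right_injective h4).symm

theorem dual {c c' : P2 →L[ℝ] ℝ} (h : ∀ s t : ℝ, s • c + t • c' = 0 → s = 0 ∧ t = 0) :
    ∃ u u' : P2, ∀ l : P2 →L[ℝ] ℝ, l = l u • c + l u' • c' := by
  have hd : c (1, 0) * c' (0, 1) - c (0, 1) * c' (1, 0) ≠ 0 := fun k => by
    obtain ⟨h1, h2⟩ := h (c' (0, 1)) (-c (0, 1)) (lin_ext (by simp; linarith) (by simp; ring))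
    obtain ⟨h3, h4⟩ := h (c' (1, 0)) (-c (1, 0)) (lin_ext (by simp; ring) (by simp; linarith))
    have := (h 1 0 (lin_ext (by simpa using h4) (by simpa using h2))).1
    simp at this
  set d := c (1, 0) * c' (0, 1) - c (0, 1) * c' (1, 0) with hdd
  refine ⟨(c' (0, 1) / d) • (1, 0) + (-c' (1, 0) / d) • (0, 1),
    (-c (0, 1) / d) • (1, 0) + (c (1, 0) / d) • (0, 1), fun l => lin_ext ?_ ?_⟩ <;>
  · simp only [map_add, map_smul, ContinuousLinearMap.add_apply, ContinuousLinearMap.smul_apply,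
      smul_eq_mul]
    field_simp
    rw [hdd]
    ring

end prim

/-- the total space -/
abbrev W := P2 × P2

theorem add_mem {ε : ℝ} {q : W} (h : q ∈ Dom ε) (p : P2) : q + (0, p) ∈ Dom ε :=
  mem_dom.2 (by simpa using h.1)

/-- closed periodic two-forms vanishing on the fibres -/
structure Lag (ε : ℝ) (B : W → Bil W) : Prop where
  sm : ContDiffOn ℝ ∞ B (Dom ε)
  cl : ∀ q ∈ Dom ε, ∀ a b c,
    fderiv ℝ B q a b c - fderiv ℝ B q b a c + fderiv ℝ B q c a b = 0
  per : ∀ q ∈ Dom ε, ∀ m n : ℤ, B (q + (0, zv m n)) = B q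
  alt : ∀ q a b, B q b a = - B q a b
  ver : ∀ q ∈ Dom ε, ∀ w w' : P2, B q (0, w) (0, w') = 0

variable {ε : ℝ} {B : W → Bil W} (h : Lag ε B)
include h

theorem Lag.der {q : W} (hq : q ∈ Dom ε) : HasFDerivAt B (fderiv ℝ B q) q :=
  ((h.sm.contDiffAt ((dom_open ε).mem_nhds hq)).differentiableAt (by simp)).hasFDerivAt

theorem Lag.der2 {q : W} (hq : q ∈ Dom ε) (a b c : W) :
    fderiv ℝ (fun q => B q b c) q a = fderiv ℝ B q a b c := by
  rw [(((h.der hq).clm_apply (hasFDerivAt_const b q)).clm_apply (hasFDerivAt_const c q)).fderiv]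
  simp

theorem Lag.cont3 {y : P2} (hy : y ∈ ball (0 : P2) ε) (u : P2) (a b c : W) :
    Continuous fun t : ℝ => fderiv ℝ B (y, t • u) a b c := by
  have h1 : ContDiffOn ℝ ∞ (fun q => B q b c) (Dom ε) :=
    (h.sm.clm_apply contDiffOn_const).clm_apply contDiffOn_const
  have h2 := ((h1.continuousOn_fderiv_of_isOpen (dom_open ε) (by simp)).clm_apply
    (continuousOn_const (c := a))).comp_continuous (f := fun t : ℝ => ((y, t • u) : W))
    (by fun_prop) fun t => mem_dom.2 hy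
  exact h2.congr fun t => h.der2 (mem_dom.2 hy) a b c

theorem Lag.line {y : P2} (hy : y ∈ ball (0 : P2) ε) (u : P2) (a b : W) (t : ℝ) :
    HasDerivAt (fun t : ℝ => B (y, t • u) a b) (fderiv ℝ B (y, t • u) (0, u) a b) t := by
  have k5 : HasDerivAt (fun t : ℝ => ((y, t • u) : W)) (0, u) t := by
    simpa using (hasDerivAt_const t y).prodMk ((hasDerivAt_id t).smul_const u)
  have hq : ((y, t • u) : W) ∈ Dom ε := mem_dom.2 hy
  have k6 : DifferentiableAt ℝ (fun q => B q a b) (y, t • u) :=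
    ((h.der hq).differentiableAt.clm_apply (differentiableAt_const a)).clm_apply
      (differentiableAt_const b)
  rw [← h.der2 hq]
  exact HasFDerivAt.comp_hasDerivAt (l := fun q => B q a b) (f := fun t : ℝ => ((y, t • u) : W))
    t k6.hasFDerivAt k5

/-- the potential of one period -/
theorem Lag.pot (m n : ℤ) : ∃ φ : P2 → ℝ, ContDiffOn ℝ ∞ φ (ball 0 ε) ∧ ∀ y ∈ ball (0 : P2) ε, ∀ ξ,
    fderiv ℝ φ y ξ = ∫ t in (0 : ℝ)..1, B (y, t • zv m n) (ξ, 0) (0, zv m n) := by
  set u : P2 := zv m n with hu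
  let L : Bil W →L[ℝ] Cov P2 :=
    ((ContinuousLinearMap.compL ℝ P2 W ℝ).flip (ContinuousLinearMap.inl ℝ P2 P2)).comp
      ((ContinuousLinearMap.apply ℝ (Cov W) ((0, u) : W)).comp (P247S.flipL W W))
  have hL : ∀ β ξ, L β ξ = β (ξ, 0) (0, u) := fun _ _ => rfl
  let A : P2 × ℝ →L[ℝ] W := (ContinuousLinearMap.fst ℝ P2 ℝ).prod
    ((ContinuousLinearMap.snd ℝ P2 ℝ).smulRight u)
  have hA : ∀ y t, A (y, t) = (y, t • u) := fun _ _ => rfl
  have ho : IsOpen (ball (0 : P2) ε ×ˢ (univ : Set ℝ)) := isOpen_ball.prod isOpen_univ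
  have hf : ContDiffOn ℝ ∞ (fun z => L (B (A z))) (ball (0 : P2) ε ×ˢ univ) := fun z hz =>
    (P247S.cda (E := Bil W) (F := Cov P2) L ((h.sm.contDiffAt ((dom_open ε).mem_nhds
      (x := A z) (mem_dom.2 hz.1))).comp z A.contDiff.contDiffAt)).contDiffWithinAt
  have hP := P267.H734.contDiffOn_integral ho isOpen_ball (fun p hp t _ => ⟨hp, trivial⟩) hf
  have hd : ∀ y ∈ ball (0 : P2) ε, ∀ ξ ξ', fderiv ℝ (fun y => ∫ t in (0 : ℝ)..1, L (B (A (y, t))))
      y ξ ξ' = ∫ t in (0 : ℝ)..1, fderiv ℝ B (y, t • u) (ξ, 0) (ξ', 0) (0, u) := fun y hy ξ ξ' => by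
    have k2 : Continuous fun t : ℝ => (fderiv ℝ (fun z => L (B (A z))) (y, t)).comp
        (ContinuousLinearMap.inl ℝ P2 ℝ) :=
      ((hf.continuousOn_fderiv_of_isOpen ho (by simp)).comp_continuous
        (f := fun t : ℝ => (y, t)) (by fun_prop) fun t => ⟨hy, trivial⟩).clm_comp continuous_const
    rw [(P267.H734.hasFDerivAt_integral ho (hf.of_le (by simp)) fun t _ => ⟨hy, trivial⟩).fderiv,
      ContinuousLinearMap.intervalIntegral_apply (k2.intervalIntegrable _ _),
      ContinuousLinearMap.intervalIntegral_apply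
        ((k2.clm_apply continuous_const).intervalIntegrable _ _)]
    refine intervalIntegral.integral_congr fun t _ => ?_
    have k1 := (P247S.fda (E := Bil W) (F := Cov P2) L
      ((h.der (q := A (y, t)) (mem_dom.2 hy)).comp (y, t) A.hasFDerivAt)).fderiv
    simp only [comp_def] at k1
    simp only [k1]
    show fderiv ℝ B (y, t • u) (ξ, (0 : ℝ) • u) (ξ', 0) (0, u) = _
    rw [zero_smul]
  obtain ⟨φ, hφ⟩ := (convex_ball (0 : P2) ε).exists_forall_hasFDerivAt_of_fderiv_symmetric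
    isOpen_ball (hP.differentiableOn (by simp)) fun y hy ξ ξ' => by
      have k3 := h.cont3 hy u
      rw [hd y hy, hd y hy, ← sub_eq_zero, ← intervalIntegral.integral_sub
        ((k3 _ _ _).intervalIntegrable _ _) ((k3 _ _ _).intervalIntegrable _ _)]
      have k4 : ∀ t : ℝ, HasDerivAt (fun t : ℝ => -B (y, t • u) (ξ, 0) (ξ', 0))
          (fderiv ℝ B (y, t • u) (ξ, 0) (ξ', 0) (0, u) -
            fderiv ℝ B (y, t • u) (ξ', 0) (ξ, 0) (0, u)) t := fun t => by
        refine (h.line hy u (ξ, 0) (ξ', 0) t).neg.congr_deriv ?_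
        have := h.cl (y, t • u) (mem_dom.2 hy) (ξ, 0) (ξ', 0) (0, u)
        linarith
      rw [intervalIntegral.integral_eq_sub_of_hasDerivAt (fun t _ => k4 t)
        (((k3 _ _ _).sub (k3 _ _ _)).intervalIntegrable _ _)]
      have := h.per (y, 0) (mem_dom.2 hy) m n
      simp only [Prod.mk_add_mk, add_zero, zero_add] at this
      simp only [one_smul, zero_smul, hu, this, sub_self]
  refine ⟨φ, (contDiffOn_infty_iff_fderiv_of_isOpen isOpen_ball).2
    ⟨fun y hy => (hφ y hy).differentiableAt.differentiableWithinAt,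
      hP.congr fun y hy => (hφ y hy).fderiv⟩, fun y hy ξ => ?_⟩
  rw [(hφ y hy).fderiv, ContinuousLinearMap.intervalIntegral_apply
    (P267.H734.intervalIntegrable_section hf.continuousOn fun t _ => ⟨hy, trivial⟩)]
  rfl

/-- action coordinates -/
theorem Lag.act : ∃ Φ : P2 → Cov P2, ContDiffOn ℝ ∞ Φ (ball 0 ε) ∧ ∀ y ∈ ball (0 : P2) ε, ∀ ξ,
    ∃ g : P2 → ℝ, (∀ (p : P2) (m n : ℤ), g (p + zv m n) = g p) ∧ ∀ p, HasFDerivAt g
      ((B (y, p) (ξ, 0)).comp (ContinuousLinearMap.inr ℝ P2 P2) - fderiv ℝ Φ y ξ) p := by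
  obtain ⟨φ, h1, h2⟩ := h.pot 1 0
  obtain ⟨ψ, h3, h4⟩ := h.pot 0 1
  refine ⟨fun y => φ y • ContinuousLinearMap.fst ℝ ℝ ℝ + ψ y • ContinuousLinearMap.snd ℝ ℝ ℝ,
    (h1.smul contDiffOn_const).add (h3.smul contDiffOn_const), fun y hy ξ => ?_⟩
  let θ : P2 → Cov P2 := fun p => (B (y, p) (ξ, 0)).comp (ContinuousLinearMap.inr ℝ P2 P2)
  have hθ : ∀ p, HasFDerivAt θ _ p := fun p =>
    (((h.der (q := (y, p)) (mem_dom.2 hy)).comp p (hasFDerivAt_prodMk_right y p)).clm_apply
      (hasFDerivAt_const ((ξ, 0) : W) p)).clm_comp (hasFDerivAt_const _ p)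
  have hθ' : ∀ p w w', fderiv ℝ θ p w w' = fderiv ℝ B (y, p) (0, w) (ξ, 0) (0, w') :=
    fun p w w' => by rw [(hθ p).fderiv]; simp
  obtain ⟨c, g, k1, k2⟩ := prim_per isOpen_univ convex_univ univ_nonempty (om := θ)
    (fun p _ => (hθ p).differentiableAt.differentiableWithinAt) (fun p _ w w' => by
      have hq : ((y, p) : W) ∈ Dom ε := mem_dom.2 hy
      have e1 := h.cl _ hq (0, w) (ξ, 0) (0, w')
      have e2 : fderiv ℝ B (y, p) (ξ, 0) (0, w) (0, w') = 0 := by
        rw [← h.der2 hq, (show (fun q => B q (0, w) (0, w')) =ᶠ[𝓝 (y, p)] fun _ => 0 from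
          mem_of_superset ((dom_open ε).mem_nhds hq) fun q k => h.ver q k w w').fderiv_eq]
        simp
      have e3 : fderiv ℝ B (y, p) (0, w') (0, w) (ξ, 0) =
          -fderiv ℝ B (y, p) (0, w') (ξ, 0) (0, w) := by
        rw [← h.der2 hq, ← h.der2 hq, funext fun q => h.alt q (ξ, 0) (0, w), fderiv_fun_neg]
        rfl
      rw [hθ', hθ']
      linarith) (ContinuousLinearMap.id ℝ P2) (ContinuousLinearMap.id ℝ P2) (fun _ => rfl)
    (fun _ _ _ _ => trivial) fun p _ m n => by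
      have := h.per (y, p) (mem_dom.2 hy) m n
      simp only [Prod.mk_add_mk, add_zero] at this
      simp only [θ, ContinuousLinearMap.id_apply, this]
  have k3 : ∀ m n : ℤ, c (zv m n) = ∫ t in (0 : ℝ)..1, θ (t • zv m n) (zv m n) := fun m n => by
    have k4 : ∀ t : ℝ, HasDerivAt (fun t : ℝ => g (t • zv m n) + t * c (zv m n))
        (θ (t • zv m n) (zv m n)) t := fun t => by
      have := ((k1 _ trivial).comp_hasDerivAt t ((hasDerivAt_id t).smul_const (zv m n))).add
        ((hasDerivAt_id t).mul_const (c (zv m n)))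
      refine this.congr_deriv ?_
      simp
    have k5 : Continuous θ := continuous_iff_continuousAt.2 fun p => (hθ p).continuousAt
    rw [intervalIntegral.integral_eq_sub_of_hasDerivAt (fun t _ => k4 t)
      (((k5.comp (by fun_prop)).clm_apply continuous_const).intervalIntegrable _ _)]
    have := k2 0 trivial m n
    simp only [ContinuousLinearMap.id_apply, zero_add] at this
    simp [this]
  have d1 := (h1.contDiffAt (isOpen_ball.mem_nhds hy)).differentiableAt (by simp)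
  have d2 := (h3.contDiffAt (isOpen_ball.mem_nhds hy)).differentiableAt (by simp)
  refine ⟨g, fun p m n => k2 p trivial m n, fun p => (k1 p trivial).congr_fderiv ?_⟩
  have d3 := ((d1.hasFDerivAt.smul_const (ContinuousLinearMap.fst ℝ ℝ ℝ)).fun_add
    (d2.hasFDerivAt.smul_const (ContinuousLinearMap.snd ℝ ℝ ℝ))).fderiv
  erw [d3, ContinuousLinearMap.comp_id]
  congr 1
  refine lin_ext ?_ ?_
  · have := (k3 1 0).trans (h2 y hy ξ).symm
    simpa [zv] using this
  · have := (k3 0 1).trans (h4 y hy ξ).symm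
    simpa [zv] using this

end Vale.Agent.P247D.Per
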